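import Vale.Agent.P006.MI

noncomputable section
open Complex MeasureTheory Finset
open scoped Classical ComplexConjugate

namespace Vale.Agent.P006.MI
open Vale.Agent.P026 W1 Vau
namespace CBM

def G (s : O) (t Y : ℝ) (u : O) : ℂ := if Prim u ∧ IsCoprime u s then
  (Real.sqrt (N u) : ℂ) * ((N u ^ 3 : ℝ) : ℂ) ^ (t * I) * P s t (Y / N u ^ 3) else 0

lemma ncp {x : ℝ} (hx : 0 < x) (t : ℝ) : ‖(x : ℂ) ^ (t * I)‖ = 1 := by
  rw [Complex.norm_cpow_eq_rpow_re_of_pos hx]; simp

lemma G_le (s : O) (t Y : ℝ) {u : O} (hu : Prim u) : ‖G s t Y u‖ ≤ Real.sqrt (N u) * ‖P s t (Y / N u ^ 3)‖ := by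
  have := N1 hu
  unfold G
  split_ifs
  · rw [norm_mul, norm_mul, ncp (by positivity), mul_one, Complex.norm_real,
      Real.norm_of_nonneg (Real.sqrt_nonneg _)]
  · rw [norm_zero]; positivity

lemma G_mul (s : O) (t Y : ℝ) {e : O} (he : Prim e) (l : O) : G s t Y (e * l) =
    (if IsCoprime e s then (Real.sqrt (N e) : ℂ) * ((N e ^ 3 : ℝ) : ℂ) ^ (t * I) else 0) *
      G s t (Y / N e ^ 3) l := by
  unfold G
  by_cases h1 : IsCoprime e s
  · rw [if_pos h1]
    by_cases h2 : Prim l ∧ IsCoprime l s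
    · rw [if_pos h2, if_pos ⟨bas.b2.mul _ _ he h2.1, h1.mul_left h2.2⟩, bas.b1.N_mul,
        Real.sqrt_mul (N0 _), mul_pow, div_div, Complex.ofReal_mul, Complex.ofReal_mul,
        Complex.mul_cpow_ofReal_nonneg (pow_nonneg (N0 _) _) (pow_nonneg (N0 _) _)]
      ring
    · rw [if_neg h2, if_neg fun h => h2 ⟨bas.b2.cancel _ _ he h.1, h.2.of_mul_left_right⟩, mul_zero]
  · rw [if_neg h1, zero_mul, if_neg fun h => h1 h.2.of_mul_left_left]

lemma reix (F : O → ℂ) {e : O} (he : e ≠ 0) : ∑' n, (if e ∣ n then F n else 0) = ∑' l, F (e * l) := by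
  have inj : Function.Injective fun l => e * l := fun a b h => mul_left_cancel₀ he h
  rw [← inj.tsum_eq]
  · simp
  · intro n hn
    have : e ∣ n := by
      by_contra h'
      exact hn (if_neg h')
    obtain ⟨l, rfl⟩ := this
    exact ⟨l, rfl⟩

end CBM
open CBM

theorem cbS (hU : CUStmt) (hP : P0Stmt) : CBStmt := by
  intro ε h0 h1
  obtain ⟨C, c0, hP⟩ := hP
  obtain ⟨D, hD⟩ := bas.b3.div ε h0
  refine ⟨|D|, abs_nonneg _, fun s t Y E hs hY hE => ?_⟩
  have s2 := (bas.b3.summ 2 (by norm_num)).mul_left (C * Y)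
  have bd : ∀ u, Prim u → ∀ a : ℝ, a ≤ 1 → N u ^ a * ‖P s t (Y / N u ^ 3)‖ ≤ C * Y * N u ^ (-2 : ℝ) := by
    intro u hu a ha
    have n1 := N1 hu
    have n0 : 0 < N u := by linarith
    have y0 : 0 < Y / N u ^ 3 := by positivity
    have p := (hP s t _ y0).2.1
    have p2 : ‖P s t (Y / N u ^ 3)‖ ≤ C * (Y / N u ^ 3) :=
      p.trans (mul_le_mul_of_nonneg_left (mul_le_of_le_one_right y0.le (min_le_left _ _)) c0)
    have p3 : N u ^ a ≤ N u := by
      conv_rhs => rw [← Real.rpow_one (N u)]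
      exact Real.rpow_le_rpow_of_exponent_le n1 ha
    calc _ ≤ N u * (C * (Y / N u ^ 3)) := mul_le_mul p3 p2 (norm_nonneg _) n0.le
      _ = _ := by rw [Real.rpow_neg n0.le, Real.rpow_two]; field_simp
  have nn : ∀ u : O, 0 ≤ C * Y * N u ^ (-2 : ℝ) := fun u => by have := N0 u; positivity
  have sT : Summable fun u => if Prim u ∧ E < N u then N u ^ (1 / 2 + ε) * ‖P s t (Y / N u ^ 3)‖ else 0 := by
    refine Summable.of_nonneg_of_le (fun u => ?_) (fun u => ?_) s2
    · have := N0 u
      split_ifs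
      · positivity
      · exact le_rfl
    · split_ifs with h
      · exact bd u h.1 _ (by linarith)
      · exact nn u
  refine ⟨sT, ?_⟩
  have sG : Summable (G s t Y) := by
    refine Summable.of_norm_bounded s2 fun u => ?_
    by_cases hu : Prim u
    · refine (G_le s t Y hu).trans ?_
      rw [Real.sqrt_eq_rpow]; exact bd u hu _ (by norm_num)
    · rw [G, if_neg fun h => hu h.1, norm_zero]; exact nn u
  set c : O → ℂ := fun n => ∑ e ∈ PS E, if e ∣ n then mu e else 0 with hc
  have se : ∀ e ∈ PS E, Summable fun n => (if e ∣ n then mu e else 0) * G s t Y n := fun e _ => by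
    refine Summable.of_norm_bounded sG.norm fun n => ?_
    rw [norm_mul]
    refine mul_le_of_le_one_left (norm_nonneg _) ?_
    split_ifs
    · exact b8.mu_le e
    · simp
  have e1 : ∑' n, c n * G s t Y n = ∑ e ∈ PS E, mu e * ∑' l, G s t Y (e * l) := by
    simp only [hc, sum_mul]
    rw [Summable.tsum_finsetSum se]
    refine sum_congr rfl fun e he => ?_
    rw [← reix _ (bas.b2.ne e (mem_PS.1 he).1), ← tsum_mul_left]
    refine tsum_congr fun n => ?_
    split_ifs <;> simp
  have b1 : ‖∑' n, c n * G s t Y n‖ ≤ ∑ e ∈ PS E, Real.sqrt (N e) * ‖Dl s t (Y / N e ^ 3)‖ := by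
    rw [e1]
    refine norm_sum_le_of_le _ fun e he => ?_
    have pe := (mem_PS.1 he).1
    have n1 := N1 pe
    simp only [G_mul s t Y pe]
    rw [tsum_mul_left, hU s t _ hs (by positivity), norm_mul, norm_mul]
    refine (mul_le_of_le_one_left (by positivity) (b8.mu_le e)).trans ?_
    refine mul_le_mul_of_nonneg_right ?_ (norm_nonneg _)
    split_ifs
    · rw [norm_mul, ncp (by positivity), mul_one, Complex.norm_real, Real.norm_of_nonneg (Real.sqrt_nonneg _)]
    · rw [norm_zero]; positivity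
  set R : O → ℂ := fun n => if Prim n ∧ E < N n then c n * G s t Y n else 0 with hR
  have rb : ∀ n, ‖R n‖ ≤ |D| * if Prim n ∧ E < N n then N n ^ (1 / 2 + ε) * ‖P s t (Y / N n ^ 3)‖ else 0 := by
    intro n
    simp only [hR]
    split_ifs with h
    · have n1 := N1 h.1
      have n0 : 0 < N n := by linarith
      have cb : ‖c n‖ ≤ |D| * N n ^ ε := by
        have := hD n (bas.b2.ne n h.1) ((PS E).filter (· ∣ n)) fun d hd => (mem_filter.1 hd).2
        simp only [hc]
        rw [← sum_filter]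
        refine (norm_sum_le_of_le _ fun e _ => b8.mu_le e).trans ?_
        rw [sum_const, nsmul_eq_mul, mul_one]
        exact this.trans (mul_le_mul_of_nonneg_right (le_abs_self D) (by positivity))
      rw [norm_mul]
      refine (mul_le_mul cb (G_le s t Y h.1) (norm_nonneg _) (by positivity)).trans (le_of_eq ?_)
      rw [Real.sqrt_eq_rpow, Real.rpow_add n0]; ring
    · simp
  have sR : Summable R := Summable.of_norm_bounded (sT.mul_left _) rb
  have b2 : ‖∑' n, R n‖ ≤
      |D| * ∑' u, if Prim u ∧ E < N u then N u ^ (1 / 2 + ε) * ‖P s t (Y / N u ^ 3)‖ else 0 :=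
    tsum_of_norm_bounded (sT.hasSum.mul_left _) rb
  have pt : ∀ n, c n * G s t Y n = (if n = 1 then P s t Y else 0) + R n := by
    intro n
    simp only [hR]
    by_cases hn : Prim n
    · by_cases k : E < N n
      · have a1 : ¬ n = 1 := by rintro rfl; rw [N_one] at k; linarith
        have a2 : Prim n ∧ E < N n := ⟨hn, k⟩
        rw [if_pos a2, if_neg a1, zero_add]
      · have n0 := bas.b2.ne n hn
        have : c n = if n = 1 then 1 else 0 := by
          rw [← sum_mu hn]
          simp only [hc]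
          rw [← sum_filter]
          refine sum_congr ?_ fun _ _ => rfl
          ext d
          rw [mem_dv n0, mem_filter, mem_PS]
          exact ⟨fun h => ⟨h.1.1, h.2⟩, fun h => ⟨⟨h.1, (N_dvd n0 h.2).trans (not_lt.1 k)⟩, h.2⟩⟩
        have a2 : ¬ (Prim n ∧ E < N n) := fun h => k h.2
        rw [if_neg a2, add_zero, this]
        split_ifs with h
        · subst h
          simp [G, bas.b2.one, isCoprime_one_left, N_one]
        · simp
    · have a1 : ¬ n = 1 := by rintro rfl; exact hn bas.b2.one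
      simp [G, a1, hn]
  have e2 : ∑' n, c n * G s t Y n = P s t Y + ∑' n, R n := by
    simp only [pt]
    rw [Summable.tsum_add (hasSum_ite_eq 1 _).summable sR, tsum_ite_eq]
  have e3 : P s t Y = ∑' n, c n * G s t Y n - ∑' n, R n := by rw [e2]; ring
  rw [e3]
  exact (norm_sub_le _ _).trans (add_le_add b1 b2)

end Vale.Agent.P006.MI
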