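import Vale.Agent.P006.MI
import Vale.Agent.P026.M.W2

/-! P006 type I block: theta coefficients in terms of squarefree sums. -/

noncomputable section
open Complex MeasureTheory
open scoped Classical ComplexConjugate

namespace Vale.Agent.P006.MI
open Vale.Agent.P026

namespace CUM

theorem N0 (n : O) : 0 ≤ N n := Nat.cast_nonneg _

theorem norm_wt (t Y : ℝ) {x : ℝ} (hx : 0 < x) : ‖wt t Y x‖ = VV Y x := by
  rw [wt, norm_mul, norm_cpow_eq_rpow_re_of_pos hx, norm_real,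
    Real.norm_of_nonneg (show 0 ≤ VV Y x from (Real.exp_pos _).le)]
  simp

theorem wt_mul (t : ℝ) {Y c x : ℝ} (hY : 0 < Y) (hc : 0 < c) (hx : 0 < x) :
    wt t Y (c * x) = (c : ℂ) ^ (t * I) * wt t (Y / c) x := by
  rw [wt, wt, W2.ln.scale Y x c hY hx hc, ofReal_mul, mul_cpow_ofReal_nonneg hc.le hx.le, mul_assoc]

theorem summ (t : ℝ) {Y : ℝ} (hY : 0 < Y) (S : O → Prop) [DecidablePred S] (hS : ∀ k, S k → Prim k)
    (a : O → ℂ) (ha : ∀ k, Prim k → ‖a k‖ ≤ N k ^ (1 / 6 : ℝ)) :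
    Summable fun k => if S k then a k * wt t Y (N k) else 0 := by
  obtain ⟨C, hC⟩ := W2.ln.sum (1 / 6)
  refine (hC Y hY).1.of_norm_bounded fun k => ?_
  have := N0 k
  have : 0 ≤ VV Y (N k) := (Real.exp_pos _).le
  split_ifs with c1 c2
  · exact absurd c2 (W1.bas.b2.ne k (hS k c1))
  · rw [norm_mul, norm_wt t Y (Z0.N_pos c2)]
    exact mul_le_mul_of_nonneg_right (ha k (hS k c1)) (by positivity)
  · simp
  · rw [norm_zero]; positivity

theorem cc_le {k : O} (hk : Prim k) : ‖K.cc k‖ ≤ N k ^ (1 / 6 : ℝ) := by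
  have a1 := Z0.N_pos (W1.bas.b2.ne k hk)
  rw [K.cc, norm_div, norm_mul, norm_real, Real.norm_of_nonneg (Real.sqrt_nonneg _),
    div_le_iff₀ (Real.sqrt_pos.2 a1), Real.sqrt_eq_rpow, ← Real.rpow_add a1]
  refine (mul_le_of_le_one_left (norm_nonneg _) (W1.bas.b6.norm_le _ _)).trans
    ((W1.bb.norm_le k).trans (le_of_eq ?_))
  norm_num

theorem ww_le {k : O} (hk : Prim k) : ‖(K.ww k : ℂ)‖ ≤ N k ^ (1 / 6 : ℝ) := by
  have a1 := Z0.N_pos (W1.bas.b2.ne k hk)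
  have b1 : N k ^ (1 / 6 : ℝ) = (N k ^ (2 / 3 : ℝ)) ^ 2 * N k ^ (-7 / 6 : ℝ) := by
    rw [← Real.rpow_natCast, ← Real.rpow_mul (N0 k), ← Real.rpow_add a1]
    norm_num
  rw [norm_real, Real.norm_of_nonneg (by unfold K.ww; positivity), b1, K.ww]
  exact mul_le_mul_of_nonneg_right (pow_le_pow_left₀ (norm_nonneg _) (W1.bb.norm_le k) 2)
    (by positivity)

def ff (s : O) (t Y : ℝ) (k : O) : ℂ := if Prim k then
  (gt s * (cub lam k / (Real.sqrt (N k) : ℂ) * cub s k) - if IsCoprime k s then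
    ((K.cstar * N s ^ (-1 / 6 : ℝ) : ℝ) : ℂ) * (conj (bb k) * ((N k ^ (-7 / 6 : ℝ) : ℝ) : ℂ)) else 0) *
      wt t Y (N k) else 0

theorem pt (s : O) (t Y : ℝ) (k : O) : bb k * ff s t Y k =
    gt s * (if Prim k then K.cc k * cub s k * wt t Y (N k) else 0) -
      ((K.cstar * N s ^ (-1 / 6 : ℝ) : ℝ) : ℂ) *
        (if Prim k ∧ IsCoprime k s then (K.ww k : ℂ) * wt t Y (N k) else 0) := by
  by_cases c1 : Prim k
  · by_cases c2 : IsCoprime k s
    · simp only [ff, c1, c2, if_true, and_self, K.cc, K.ww, ofReal_mul, ofReal_pow, ← mul_conj']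
      ring
    · simp only [ff, c1, c2, if_true, and_false, if_false, K.cc]
      ring
  · simp [ff, c1]

end CUM

open CUM in
theorem cuS (h0 : P0Stmt) : CUStmt := by
  have _ := h0
  have hB := W1.bas
  intro s t Y hs hY
  have s1 := summ t hY Prim (fun _ h => h) (fun k => K.cc k * cub s k) fun k hk => by
    rw [norm_mul]
    exact (mul_le_of_le_one_right (norm_nonneg _) (hB.b6.norm_le _ _)).trans (cc_le hk)
  have s2 := summ t hY (fun k => Prim k ∧ IsCoprime k s) (fun _ h => h.1) (fun k => (K.ww k : ℂ))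
    fun k hk => ww_le hk
  have s3 := s1.mul_left (gt s)
  have s4 := s2.mul_left ((K.cstar * N s ^ (-1 / 6 : ℝ) : ℝ) : ℂ)
  have s5 : Summable fun k => bb k * ff s t Y k := by simpa only [pt] using s3.sub s4
  rw [Dl, A, B, ← tsum_mul_left, ← tsum_mul_left, ← s3.tsum_sub s4, ← tsum_congr (pt s t Y),
    W1.bb.tsum_eq _ s5]
  refine tsum_congr fun u => ?_
  by_cases c1 : Prim u
  swap
  · simp [c1]
  have u0 := hB.b2.ne u c1
  have p3 := hB.b2.pow u 3 c1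
  by_cases c2 : IsCoprime u s
  swap
  · rw [if_neg fun h => c2 h.2]
    refine (tsum_congr fun n => ?_).trans tsum_zero
    split_ifs with c
    · rw [ff, if_pos (hB.b2.mul _ _ c.2.1 p3), if_neg fun h =>
        c2 (h.of_mul_left_right.of_isCoprime_of_dvd_left (dvd_pow_self u three_ne_zero)),
        hB.b6.mul_r s _ _ (hB.b2.ne _ c.2.1) (hB.b2.ne _ p3), hB.b6.pow_r s u 3 u0,
        hB.b6.zero s u u0 fun h => c2 h.symm]
      simp
    · rfl
  rw [if_pos ⟨c1, c2⟩, P, ← tsum_mul_left]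
  refine tsum_congr fun n => ?_
  by_cases c3 : Prim n
  swap
  · simp [c3]
  have n0 := hB.b2.ne n c3
  rw [if_pos c3]
  by_cases c4 : Squarefree n
  swap
  · rw [if_neg fun h => c4 h.2.2, del, if_neg fun h => c4 h.2.of_mul_right]
    simp
  have a1 := Z0.N_pos u0
  have a2 := Z0.N_pos n0
  have a3 := Z0.N_pos (hB.b2.ne s hs.1)
  rw [if_pos ⟨c1, c3, c4⟩, ff, if_pos (hB.b2.mul _ _ c3 p3), hB.b6.mul_r s _ _ n0 (hB.b2.ne _ p3),
    hB.b6.pow_r s u 3 u0, hB.b6.cube s u c2.symm, hB.b6.mul_r lam _ _ n0 (hB.b2.ne _ p3),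
    hB.b6.pow_r lam u 3 u0, hB.b6.cube lam u (Z0.cop_lam c1), hB.b1.N_mul, hB.b1.N_pow,
    mul_comm (N n) (N u ^ 3), wt_mul t hY (by positivity) a2, W1.bb.eq n u c3 c1 c4]
  by_cases c5 : IsCoprime n s
  swap
  · rw [if_neg fun h => c5 h.of_mul_left_left, hB.b6.zero s n n0 fun h => c5 h.symm, del,
      if_neg fun h => c5 (squarefree_mul_iff.1 h.2).1.isCoprime.symm]
    simp
  have sp : SP (s * n) := ⟨hB.b2.mul _ _ hs.1 c3,
    squarefree_mul_iff.2 ⟨c5.symm.isRelPrime, hs.2, c4⟩⟩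
  rw [if_pos (c5.mul_left c2.pow_left), del, if_pos sp, Z0.gt_mul hs.1 c3 c5.symm, hB.b1.N_mul,
    Real.mul_rpow a3.le a2.le]
  have g1 : gs n * conj (gs n) = (N n : ℝ) := by
    rw [mul_conj', ← ofReal_pow, W1.hd.n3 n (hB.b2.cop n c3) c4]
  have r1 : N n * N u ^ 4 * (N u ^ 3 * N n) ^ (-7 / 6 : ℝ) =
      Real.sqrt (N u) * N n ^ (-1 / 6 : ℝ) := by
    have b1 : N n ^ (-1 / 6 : ℝ) = N n * N n ^ (-7 / 6 : ℝ) := by
      rw [← Real.rpow_one_add' (N0 n) (by norm_num)]; norm_num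
    have b2 : N u ^ (1 / 2 : ℝ) = N u ^ 4 * (N u ^ 3) ^ (-7 / 6 : ℝ) := by
      rw [← Real.rpow_natCast, ← Real.rpow_natCast, ← Real.rpow_mul (N0 u), ← Real.rpow_add a1]
      norm_num
    rw [Real.sqrt_eq_rpow, b1, b2, Real.mul_rpow (by positivity) (N0 n)]; ring
  have r3 : N u ^ 2 / Real.sqrt (N u ^ 3 * N n) = Real.sqrt (N u) / Real.sqrt (N n) := by
    have b1 := Real.sqrt_pos.2 a1
    have b2 := Real.sqrt_pos.2 a2
    have b3 : Real.sqrt (N u ^ 3 * N n) = N u * Real.sqrt (N u) * Real.sqrt (N n) := by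
      rw [Real.sqrt_mul (by positivity), pow_succ, Real.sqrt_mul (by positivity), Real.sqrt_sq a1.le]
    have b4 := Real.mul_self_sqrt a1.le
    rw [b3, div_eq_div_iff (by positivity) (by positivity)]
    linear_combination (-(N u) * Real.sqrt (N n)) * b4
  have r2 := congrArg (fun x : ℝ => (x : ℂ)) r1
  have r4 := congrArg (fun x : ℝ => (x : ℂ)) r3
  simp only [map_mul, map_pow, conj_ofReal, ofReal_mul, ofReal_pow, ofReal_div] at r2 r4 ⊢
  rw [show gt n = cub lam n * gs n / (Real.sqrt (N n) : ℂ) from rfl]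
  generalize ((N u : ℂ) ^ 3) ^ (t * I) = Z
  generalize wt t (Y / N u ^ 3) (N n) = W
  linear_combination (gs n * gt s * cub lam n * cub s n * Z * W) * r4 -
    (K.cstar * ((N s ^ (-1 / 6 : ℝ) : ℝ) : ℂ) * (N u : ℂ) ^ 4 *
      (((N u ^ 3 * N n) ^ (-7 / 6 : ℝ) : ℝ) : ℂ) * Z * W) * g1 -
    (K.cstar * ((N s ^ (-1 / 6 : ℝ) : ℝ) : ℂ) * Z * W) * r2

end Vale.Agent.P006.MI
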