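import Vale.Agent.P006.MI

/-! P006 type I block: cancellation of the main terms. -/

noncomputable section
open Complex
open scoped ComplexConjugate

namespace Vale.Agent.P006.MI

open Vale.Agent.P026

theorem dlS (hR : RHOStmt) (hT : TWStmt) (h8 : W8Stmt) : DLStmt := by
  intro d d0 d1
  obtain ⟨C1, C10, h1⟩ := hT _ hR d d0 d1
  obtain ⟨C2, C20, h2⟩ := h8 d d0
  refine ⟨C1 + |K.cstar| * C2, by positivity, fun s t Y hs hY => ?_⟩
  have n1 := Vau.N1 hs.1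
  have g1 := Z0.norm_gt hs.1 hs.2
  have g2 : gt s * conj (gt s) = 1 := by rw [mul_conj, normSq_eq_norm_sq, g1]; simp
  have c : K.cc s = gt s := by
    have := W1.bb.eq s 1 hs.1 W1.bas.b2.one hs.2
    simp only [one_pow, mul_one, Vau.N_one, ofReal_one] at this
    rw [K.cc, gt, this]
  have e : Dl s t Y = gt s * (A s t Y - ((K.cstar * al : ℝ) : ℂ) * K.MM s * mw t Y) -
      ((K.cstar * N s ^ (-1 / 6 : ℝ) : ℝ) : ℂ) * (B s t Y - ((al * K.EP s : ℝ) : ℂ) * mw t Y) := by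
    rw [Dl, K.MM, c]
    push_cast
    linear_combination (K.cstar * al * ((N s ^ (-1 / 6 : ℝ) : ℝ) : ℂ) * K.EP s * mw t Y) * g2
  have t0 := abs_nonneg t
  have b : ‖((K.cstar * N s ^ (-1 / 6 : ℝ) : ℝ) : ℂ) *
      (B s t Y - ((al * K.EP s : ℝ) : ℂ) * mw t Y)‖ ≤
      |K.cstar| * C2 * (1 + |t|) ^ 4 * (N s ^ (d - 1 / 6) * Y ^ (11 / 20 : ℝ)) := by
    rw [norm_mul, norm_real, Real.norm_eq_abs, abs_mul, abs_of_nonneg (Real.rpow_nonneg (Vau.N0 s) _),
      show d - 1 / 6 = -1 / 6 + d by ring, Real.rpow_add (by linarith)]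
    calc _ ≤ |K.cstar| * N s ^ (-1 / 6 : ℝ) * (C2 * N s ^ d * (1 + |t|) ^ 4 * Y ^ (11 / 20 : ℝ)) := by
          gcongr
          refine (h2 s t Y hs.1 hY).trans ?_
          gcongr
          exact le_self_pow₀ (by linarith) (by norm_num)
      _ = _ := by ring
  rw [e]
  refine (norm_sub_le _ _).trans ?_
  rw [norm_mul, g1, one_mul]
  refine (add_le_add (h1 s t Y hs.1 hY) b).trans ?_
  have p1 : 0 ≤ (1 + |t|) ^ 4 * (N s ^ (1 / 2 + 3 * d) * Y ^ (-d)) := by positivity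
  have p2 : 0 ≤ (1 + |t|) ^ 4 * (N s ^ (d - 1 / 6) * Y ^ (11 / 20 : ℝ)) := by positivity
  nlinarith [mul_nonneg C10 p2, mul_nonneg (mul_nonneg (abs_nonneg K.cstar) C20) p1]

end Vale.Agent.P006.MI
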