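import Vale.Agent.P006.MI

/-! Primary elements in a disc. -/

noncomputable section
open Complex MeasureTheory
open scoped Classical ComplexConjugate

namespace Vale.Agent.P006.MI
open Vale.Agent.P026 W1

namespace GCM

def cu (z : ℂ) : ℝ := z.re + z.im / Real.sqrt 3
def cv (z : ℂ) : ℝ := 2 * z.im / Real.sqrt 3
def ph (z : ℂ) : O := ⟨3 * ⌊cu z / 3⌋ + 1, 3 * ⌊cv z / 3⌋⟩

lemma s3 : 0 < Real.sqrt 3 := by positivity

lemma dec (z : ℂ) : z = cu z + cv z * om := by
  have := s3.ne'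
  apply Complex.ext
  · simp [cu, cv, om]; field_simp; ring
  · simp [cu, cv, om]; field_simp

lemma prim_iff (n : O) : Prim n ↔ ∃ p q : ℤ, n = ⟨3 * p + 1, 3 * q⟩ := by
  constructor
  · rintro ⟨z, hz⟩
    refine ⟨z.re, z.im, ?_⟩
    rw [sub_eq_iff_eq_add] at hz
    rw [hz]
    ext <;> simp [QuadraticAlgebra.re_ofNat, QuadraticAlgebra.im_ofNat, QuadraticAlgebra.re_one,
      QuadraticAlgebra.im_one]
  · rintro ⟨p, q, rfl⟩
    refine ⟨⟨p, q⟩, ?_⟩
    ext <;> simp [QuadraticAlgebra.re_ofNat, QuadraticAlgebra.im_ofNat, QuadraticAlgebra.re_one,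
      QuadraticAlgebra.im_one]

lemma norm_om : ‖om‖ ≤ 2 := by
  refine (Complex.norm_le_abs_re_add_abs_im _).trans ?_
  have h : Real.sqrt 3 ≤ 2 := Real.sqrt_le_iff.2 ⟨by norm_num, by norm_num⟩
  simp only [om]
  rw [abs_of_neg (by norm_num), abs_of_pos (by positivity)]
  linarith

lemma close (z : ℂ) : ‖z - toC (ph z)‖ ≤ 8 := by
  have e : z - toC (ph z) = ((cu z - (3 * ⌊cu z / 3⌋ + 1) : ℝ) : ℂ) +
      ((cv z - 3 * ⌊cv z / 3⌋ : ℝ) : ℂ) * om := by
    conv_lhs => rw [dec z]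
    simp only [toC, ph, RingHom.coe_mk, MonoidHom.coe_mk, OneHom.coe_mk, ← dec z]
    conv_lhs => rw [dec z]
    simp only [← dec z]
    push_cast
    linear_combination dec z
  have a1 := Int.floor_le (cu z / 3)
  have a2 := Int.lt_floor_add_one (cu z / 3)
  have a3 := Int.floor_le (cv z / 3)
  have a4 := Int.lt_floor_add_one (cv z / 3)
  have b1 : |cu z - (3 * ⌊cu z / 3⌋ + 1)| ≤ 2 := abs_le.2 ⟨by linarith, by linarith⟩
  have b2 : |cv z - 3 * ⌊cv z / 3⌋| ≤ 3 := abs_le.2 ⟨by linarith, by linarith⟩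
  rw [e]
  refine (norm_add_le _ _).trans ?_
  rw [norm_mul, Complex.norm_real, Complex.norm_real, Real.norm_eq_abs, Real.norm_eq_abs]
  have := mul_le_mul b2 norm_om (norm_nonneg _) (by norm_num)
  linarith

def tl (p q : ℤ) : Set (ℝ × ℝ) :=
  {w | w.1 + w.2 / Real.sqrt 3 ∈ Set.Ico (3 * p : ℝ) (3 * p + 3) ∧
    w.2 ∈ Set.Ico (3 * q * Real.sqrt 3 / 2) ((3 * q + 3) * Real.sqrt 3 / 2)}

lemma tl_meas (p q : ℤ) : MeasurableSet (tl p q) :=
  (measurableSet_Ico.preimage (by fun_prop)).inter (measurableSet_Ico.preimage measurable_snd)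

lemma tl_vol (p q : ℤ) : volume (tl p q) = ENNReal.ofReal (9 * Real.sqrt 3 / 2) := by
  rw [Measure.volume_eq_prod, Measure.prod_apply_symm (tl_meas p q)]
  have e : ∀ y : ℝ, volume ((fun x => (x, y)) ⁻¹' tl p q) =
      (Set.Ico (3 * q * Real.sqrt 3 / 2) ((3 * q + 3) * Real.sqrt 3 / 2)).indicator
        (fun _ => ENNReal.ofReal 3) y := fun y => by
    by_cases hy : y ∈ Set.Ico (3 * q * Real.sqrt 3 / 2) ((3 * q + 3) * Real.sqrt 3 / 2)
    · have : (fun x => (x, y)) ⁻¹' tl p q =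
          Set.Ico (3 * p - y / Real.sqrt 3) (3 * p + 3 - y / Real.sqrt 3) := by
        ext x
        simp only [tl, Set.mem_preimage, Set.mem_ofPred_eq, hy, and_true]
        simp only [Set.mem_Ico]
        constructor <;> rintro ⟨h1, h2⟩ <;> constructor <;> linarith
      rw [this, Set.indicator_of_mem hy, Real.volume_Ico]
      congr 1; ring
    · have : (fun x => (x, y)) ⁻¹' tl p q = ∅ := by
        ext x
        simp only [tl, Set.mem_preimage, Set.mem_ofPred_eq, hy, and_false, Set.mem_empty_iff_false]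
      rw [this, Set.indicator_of_notMem hy, measure_empty]
  simp only [e]
  rw [lintegral_indicator_const measurableSet_Ico, Real.volume_Ico,
    ← ENNReal.ofReal_mul (by norm_num)]
  congr 1; ring

lemma fib (p q : ℤ) : ph ⁻¹' {⟨3 * p + 1, 3 * q⟩} = Complex.measurableEquivRealProd ⁻¹' tl p q := by
  ext z
  have h := s3
  simp only [Set.mem_preimage, Set.mem_singleton_iff, ph, QuadraticAlgebra.mk.injEq, tl,
    Set.mem_ofPred_eq, Complex.measurableEquivRealProd_apply, Set.mem_Ico]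
  have e1 : 3 * ⌊cu z / 3⌋ + 1 = 3 * p + 1 ↔ ⌊cu z / 3⌋ = p := by omega
  have e2 : 3 * ⌊cv z / 3⌋ = 3 * q ↔ ⌊cv z / 3⌋ = q := by omega
  rw [e1, e2, Int.floor_eq_iff, Int.floor_eq_iff, cu, cv]
  refine and_congr ?_ ?_
  · constructor <;> rintro ⟨h1, h2⟩ <;> constructor <;> linarith
  · rw [div_div, le_div_iff₀ (by positivity), div_lt_iff₀ (by positivity)]
    constructor <;> rintro ⟨h1, h2⟩ <;> constructor <;> linarith

lemma cnt (x : ℝ) : volume (ph ⁻¹' (Vau.PS x : Set O)) =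
    ENNReal.ofReal ((Vau.PS x).card * (9 * Real.sqrt 3 / 2)) := by
  rw [← sum_measure_preimage_singleton]
  · rw [ENNReal.ofReal_mul (Nat.cast_nonneg _), ENNReal.ofReal_natCast, ← nsmul_eq_mul,
      ← Finset.sum_const]
    refine Finset.sum_congr rfl fun n hn => ?_
    obtain ⟨p, q, rfl⟩ := (prim_iff n).1 (Vau.mem_PS.1 hn).1
    rw [fib, Complex.volume_preserving_equiv_real_prod.measure_preimage
      (tl_meas p q).nullMeasurableSet, tl_vol]
  · intro n hn
    obtain ⟨p, q, rfl⟩ := (prim_iff n).1 (Vau.mem_PS.1 hn).1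
    rw [fib]
    exact (tl_meas p q).preimage Complex.measurableEquivRealProd.measurable

lemma ball (r : ℝ) (hr : 0 ≤ r) :
    volume (Metric.closedBall (0 : ℂ) r) = ENNReal.ofReal (r ^ 2 * Real.pi) := by
  rw [Complex.volume_closedBall, ENNReal.ofReal_mul (by positivity), ENNReal.ofReal_pow hr,
    ← NNReal.coe_real_pi, ENNReal.ofReal_coe_nnreal]

lemma upper {x : ℝ} : (Vau.PS x).card * (9 * Real.sqrt 3 / 2) ≤ (Real.sqrt x + 8) ^ 2 * Real.pi := by
  rw [← ENNReal.ofReal_le_ofReal_iff (by positivity), ← cnt, ← ball _ (by positivity)]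
  refine measure_mono fun z hz => ?_
  have h1 := (Vau.mem_PS.1 hz).2
  rw [bas.b1.N_eq] at h1
  have h2 := Real.le_sqrt_of_sq_le h1
  have h3 := close z
  have h4 := norm_le_norm_add_norm_sub' z (toC (ph z))
  rw [mem_closedBall_zero_iff]
  linarith

lemma lower {x : ℝ} (hx : 0 ≤ x) (h8 : 8 ≤ Real.sqrt x) :
    (Real.sqrt x - 8) ^ 2 * Real.pi ≤ (Vau.PS x).card * (9 * Real.sqrt 3 / 2) := by
  rw [← ENNReal.ofReal_le_ofReal_iff (by positivity), ← cnt, ← ball _ (by linarith)]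
  refine measure_mono fun z hz => ?_
  rw [mem_closedBall_zero_iff] at hz
  refine Vau.mem_PS.2 ⟨(prim_iff _).2 ⟨_, _, rfl⟩, ?_⟩
  have h3 := close z
  have h4 := norm_le_norm_add_norm_sub z (toC (ph z))
  rw [bas.b1.N_eq, ← Real.sq_sqrt hx]
  exact pow_le_pow_left₀ (norm_nonneg _) (by linarith) 2

end GCM

open GCM in
theorem gcS : GCStmt := by
  have a0 : 0 < al := by unfold al; positivity
  refine ⟨80 * al, by positivity, fun x hx => ?_⟩
  have h3 := s3
  have e : ∀ c y : ℝ, c * (9 * Real.sqrt 3 / 2) ≤ y * Real.pi ↔ c ≤ al * y := fun c y => by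
    rw [← le_div_iff₀ (by positivity)]
    have : y * Real.pi / (9 * Real.sqrt 3 / 2) = al * y := by unfold al; field_simp
    rw [this]
  have e' : ∀ c y : ℝ, y * Real.pi ≤ c * (9 * Real.sqrt 3 / 2) ↔ al * y ≤ c := fun c y => by
    rw [← div_le_iff₀ (by positivity)]
    have : y * Real.pi / (9 * Real.sqrt 3 / 2) = al * y := by unfold al; field_simp
    rw [this]
  have s0 := Real.sqrt_nonneg x
  have sx := Real.sq_sqrt hx
  have c0 : (0 : ℝ) ≤ (Vau.PS x).card := Nat.cast_nonneg _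
  rw [abs_le]
  constructor
  · rcases le_total 8 (Real.sqrt x) with h | h
    · have := (e' _ _).1 (lower hx h)
      have h2 : al * (x - 80 * Real.sqrt x) ≤ al * (Real.sqrt x - 8) ^ 2 :=
        mul_le_mul_of_nonneg_left (by nlinarith) a0.le
      linarith
    · have h2 : al * x ≤ al * (80 * Real.sqrt x) := mul_le_mul_of_nonneg_left (by nlinarith) a0.le
      linarith
  · rcases lt_or_ge x 1 with h | h
    · have : Vau.PS x = ∅ := Finset.eq_empty_of_forall_notMem fun n hn => by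
        have h1 := Vau.mem_PS.1 hn
        linarith [Vau.N1 h1.1, h1.2]
      rw [this, Finset.card_empty, Nat.cast_zero]
      have := mul_nonneg a0.le hx
      have := mul_nonneg a0.le s0
      linarith
    · have s1 : 1 ≤ Real.sqrt x := Real.one_le_sqrt.2 h
      have := (e _ _).1 (upper (x := x))
      have h2 : al * (Real.sqrt x + 8) ^ 2 ≤ al * (x + 80 * Real.sqrt x) :=
        mul_le_mul_of_nonneg_left (by nlinarith) a0.le
      linarith

end Vale.Agent.P006.MI
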