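import Vale.Agent.P006.MI
import Vale.Agent.P026.M.LN

/-! P006 type I block, row P0: the trivial bound. -/

noncomputable section
open Complex MeasureTheory
open scoped Classical ComplexConjugate

namespace Vale.Agent.P006.MI
open Vale.Agent.P026 W1

namespace P0M

theorem del_le (n : O) : ‖del n‖ ≤ 1 + |K.cstar| := by
  unfold del
  split_ifs with h
  · refine (norm_sub_le _ _).trans (add_le_add (Z0.norm_gt h.1 h.2).le ?_)
    rw [Complex.norm_real, Real.norm_eq_abs, abs_mul]
    refine mul_le_of_le_one_right (abs_nonneg _) ?_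
    rw [abs_of_nonneg (Real.rpow_nonneg (Vau.N0 n) _)]
    exact Real.rpow_le_one_of_one_le_of_nonpos (Vau.N1 h.1) (by norm_num)
  · rw [norm_zero]; positivity

theorem norm_wt (t Y : ℝ) {x : ℝ} (hx : 0 < x) : ‖wt t Y x‖ = VV Y x := by
  rw [wt, norm_mul, Complex.norm_cpow_eq_rpow_re_of_pos hx, Complex.norm_real,
    Real.norm_of_nonneg (show 0 ≤ VV Y x from (Real.exp_pos _).le)]
  simp

theorem sp_of {s n : O} (hn : Prim n) (h : SP (s * n)) : SP s :=
  ⟨bas.b2.cancel n s hn (by rw [mul_comm]; exact h.1), h.2.of_mul_left⟩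

end P0M

theorem p0S : P0Stmt := by
  obtain ⟨C, hC⟩ := (lnS bas).sum 0
  have k0 : 0 ≤ 1 + |K.cstar| := by positivity
  refine ⟨(1 + |K.cstar|) * |C|, by positivity, fun s t Y hY => ?_⟩
  obtain ⟨sm, le⟩ := hC Y hY
  have bd : ∀ n, ‖if Prim n then del (s * n) * wt t Y (N n) else 0‖ ≤
      (1 + |K.cstar|) * if n = 0 then 0 else N n ^ (0 : ℝ) * VV Y (N n) := by
    intro n
    by_cases p : Prim n
    · have n1 := Vau.N1 p
      rw [if_pos p, if_neg (bas.b2.ne n p), norm_mul, P0M.norm_wt _ _ (by linarith), Real.rpow_zero,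
        one_mul]
      exact mul_le_mul_of_nonneg_right (P0M.del_le _) (Real.exp_pos _).le
    · rw [if_neg p, norm_zero]
      refine mul_nonneg k0 ?_
      split_ifs
      · rfl
      · rw [Real.rpow_zero, one_mul]; exact (Real.exp_pos _).le
  refine ⟨Summable.of_nonneg_of_le (fun _ => norm_nonneg _) bd (sm.mul_left _), ?_, fun h => ?_⟩
  · refine (tsum_of_norm_bounded (sm.hasSum.mul_left _) bd).trans ?_
    rw [mul_assoc]
    refine mul_le_mul_of_nonneg_left (le.trans ?_) k0
    rw [if_pos (by norm_num), zero_add, Real.rpow_one, mul_assoc]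
    exact mul_le_mul_of_nonneg_right (le_abs_self C) (mul_nonneg hY.le (le_min zero_le_one hY.le))
  · have : ∀ n, (if Prim n then del (s * n) * wt t Y (N n) else 0) = 0 := fun n => by
      split_ifs with p
      · rw [del, if_neg fun k => h (P0M.sp_of p k), zero_mul]
      · rfl
    simp only [P, this, tsum_zero]

end Vale.Agent.P006.MI
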