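import Vale.Agent.P006.MI
import Vale.Agent.P006.M.SLB
import Vale.Agent.P006.M.HB0

noncomputable section
open Complex MeasureTheory Filter Topology
open scoped Classical ComplexConjugate

namespace Vale.Agent.P006.MI
open Vale.Agent.P026

namespace PLM
open W1

lemma del_eq {s n : O} (hs : Prim s) (hn : Prim n) : del (s * n) = M.del (s * n) := by
  unfold del M.del SP
  simp only [bas.b2.mul s n hs hn, true_and]
  rfl

lemma bil : ∃ C : ℝ, 0 ≤ C ∧ ∀ (S T : Finset O) (R X V : ℝ) (α w : O → ℂ), 1 ≤ R → 1 ≤ X → 0 ≤ V →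
    (∀ s ∈ S, SP s ∧ N s ≤ R ∧ ‖α s‖ ≤ 1) → (∀ n ∈ T, SP n ∧ N n ≤ X ∧ ‖w n‖ ≤ V) →
    ‖∑ s ∈ S, ∑ n ∈ T, α s * w n * M.del (s * n)‖ ≤
      C * V * (Real.sqrt (R + X + (R * X) ^ (2 / 3 : ℝ)) * Real.sqrt R * Real.sqrt X) := by
  obtain ⟨C, hC0, hC⟩ := M.slbS
  refine ⟨16 * C, by positivity, fun S T R X V α w hR hX hV hS hT => ?_⟩
  refine (hC R X S T α w hR hX (fun s hs => ⟨(hS s hs).1, (hS s hs).2.1⟩)
    fun n hn => ⟨(hT n hn).1, (hT n hn).2.1⟩).trans ?_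
  have c1 := bas.b3.card_le R S (by linarith) fun s hs =>
    ⟨bas.b2.ne s (hS s hs).1.1, (hS s hs).2.1⟩
  have c2 := bas.b3.card_le X T (by linarith) fun n hn =>
    ⟨bas.b2.ne n (hT n hn).1.1, (hT n hn).2.1⟩
  have b1 : ∑ a ∈ S, ‖α a‖ ^ 2 ≤ 4 ^ 2 * R := by
    have := Finset.sum_le_card_nsmul S (fun a => ‖α a‖ ^ 2) 1 fun s hs =>
      pow_le_one₀ (norm_nonneg _) (hS s hs).2.2
    rw [nsmul_eq_mul] at this
    linarith
  have b2 : ∑ a ∈ T, ‖w a‖ ^ 2 ≤ (4 * V) ^ 2 * X := by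
    have := Finset.sum_le_card_nsmul T (fun a => ‖w a‖ ^ 2) (V ^ 2) fun n hn =>
      pow_le_pow_left₀ (norm_nonneg _) (hT n hn).2.2 2
    rw [nsmul_eq_mul] at this
    nlinarith [sq_nonneg V]
  have b3 := Real.sqrt_le_sqrt b1
  have b4 := Real.sqrt_le_sqrt b2
  rw [Real.sqrt_mul (by positivity), Real.sqrt_sq (by positivity)] at b3 b4
  calc _ ≤ C * Real.sqrt (R + X + (R * X) ^ (2 / 3 : ℝ)) * (4 * Real.sqrt R) *
        (4 * V * Real.sqrt X) := by gcongr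
    _ = _ := by ring

lemma blockZ : ∃ C : ℝ, 0 ≤ C ∧ ∀ (S T : Finset O) (R X V : ℝ) (w : O → ℂ) (Z : O → ℝ), 1 ≤ R →
    1 ≤ X → 0 ≤ V → (∀ s ∈ S, SP s ∧ N s ≤ R ∧ 0 < Z s) → (∀ n ∈ T, SP n ∧ N n ≤ X ∧ ‖w n‖ ≤ V) →
    ∑ s ∈ S, ‖∑ n ∈ T, w n * M.del (s * n) * VV (Z s) (N n)‖ ≤
      C * V * (Real.sqrt (R + X + (R * X) ^ (2 / 3 : ℝ)) * Real.sqrt R * Real.sqrt X) := by
  obtain ⟨C, hC0, hC⟩ := bil
  have J0 : 0 ≤ ∫ t, ‖M.HB0.cV t‖ := integral_nonneg fun _ => norm_nonneg _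
  refine ⟨C * ∫ t, ‖M.HB0.cV t‖, by positivity, fun S T R X V w Z hR hX hV hS hT => ?_⟩
  let F : O → ℂ := fun s => ∑ n ∈ T, w n * M.del (s * n) * VV (Z s) (N n)
  let α : O → ℂ := fun s => conj (F s) / ‖F s‖
  have a1 : ∀ s, α s * F s = ‖F s‖ := by
    intro s
    by_cases h : F s = 0
    · simp [α, h]
    · have : (‖F s‖ : ℂ) ≠ 0 := by exact_mod_cast norm_ne_zero_iff.2 h
      simp only [α]
      rw [div_mul_eq_mul_div, Complex.conj_mul', div_eq_iff this]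
      ring
  have a2 : ∀ s, ‖α s‖ ≤ 1 := by
    intro s
    simp only [α, norm_div, Complex.norm_conj, Complex.norm_real, norm_norm]
    exact div_self_le_one _
  have n0 : ∀ n ∈ T, 0 < N n := fun n hn => zero_lt_one.trans_le (Vau.N1 (hT n hn).1.1)
  have q0 : ∀ x ∈ S ×ˢ T, 0 < N x.2 / Z x.1 := fun x hx =>
    div_pos (n0 _ (Finset.mem_product.1 hx).2) (hS _ (Finset.mem_product.1 hx).1).2.2
  have h1 := M.HB0.isum (S ×ˢ T) M.HB0.cV_int (fun x => α x.1 * w x.2 * M.del (x.1 * x.2))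
    (fun x t => ((N x.2 / Z x.1 : ℝ) : ℂ) ^ (((0 : ℝ) : ℂ) - t * I))
    (fun x hx => M.HB0.cpc (q0 x hx) _) (M := 1)
    (fun x hx t => by rw [M.HB0.cpn (q0 x hx), Real.rpow_zero]) (fun t => by
      have h2 := hC S T R X V (fun s => α s * (((Z s)⁻¹ : ℝ) : ℂ) ^ (((0 : ℝ) : ℂ) - t * I))
        (fun n => w n * (N n : ℂ) ^ (((0 : ℝ) : ℂ) - t * I)) hR hX hV (fun s hs =>
          ⟨(hS s hs).1, (hS s hs).2.1, by
            rw [norm_mul, M.HB0.cpn (inv_pos.2 (hS s hs).2.2), Real.rpow_zero, mul_one]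
            exact a2 s⟩) (fun n hn => ⟨(hT n hn).1, (hT n hn).2.1, by
            rw [norm_mul, M.HB0.cpn (n0 n hn), Real.rpow_zero, mul_one]
            exact (hT n hn).2.2⟩)
      refine le_trans (le_of_eq ?_) h2
      rw [Finset.sum_product]
      congr 1
      refine Finset.sum_congr rfl fun s hs => Finset.sum_congr rfl fun n hn => ?_
      dsimp only
      rw [div_eq_mul_inv, ofReal_mul,
        mul_cpow_ofReal_nonneg (n0 n hn).le (inv_pos.2 (hS s hs).2.2).le]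
      ring)
  have e2 : ∑ x ∈ S ×ˢ T, α x.1 * w x.2 * M.del (x.1 * x.2) *
      ∫ t : ℝ, M.HB0.cV t * ((N x.2 / Z x.1 : ℝ) : ℂ) ^ (((0 : ℝ) : ℂ) - t * I) =
      ((∑ s ∈ S, ‖F s‖ : ℝ) : ℂ) := by
    rw [Finset.sum_product, ofReal_sum]
    refine Finset.sum_congr rfl fun s hs => ?_
    rw [← a1 s]
    simp only [F, Finset.mul_sum]
    refine Finset.sum_congr rfl fun n hn => ?_
    rw [← M.HB0.vvm (hS s hs).2.2 (n0 n hn)]
    ring
  rw [e2, Complex.norm_real, Real.norm_of_nonneg (Finset.sum_nonneg fun _ _ => norm_nonneg _)] at h1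
  exact h1.trans (le_of_eq (by ring))

lemma block : ∃ C : ℝ, 0 ≤ C ∧ ∀ (S T : Finset O) (R X Y L a t : ℝ) (Yf : O → ℝ), 1 ≤ R → 1 ≤ X →
    0 < Y → 0 < L → 0 ≤ a → (∀ s ∈ S, SP s ∧ N s ≤ R ∧ Y ≤ Yf s ∧ Yf s ≤ 2 * Y) →
    (∀ n ∈ T, N n ≤ X ∧ (Prim n → L ≤ N n)) →
    ∑ s ∈ S, ‖∑ n ∈ T, if Prim n then del (s * n) * wt t (Yf s) (N n) else 0‖ ≤
      C * ((2 * Y / L) ^ a * Real.exp (a ^ 2 / 4)) *
        (Real.sqrt (R + X + (R * X) ^ (2 / 3 : ℝ)) * Real.sqrt R * Real.sqrt X) := by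
  obtain ⟨C, hC0, hC⟩ := blockZ
  refine ⟨C, hC0, fun S T R X Y L a t Yf hR hX hY hL ha hS hT => ?_⟩
  let T' := T.filter SP
  let w : O → ℂ := fun n => (N n : ℂ) ^ (t * I) * ((N n ^ (-a) : ℝ) : ℂ)
  let Z : O → ℝ := fun s => Yf s * Real.exp (a / 2)
  have y0 : ∀ s ∈ S, 0 < Yf s := fun s hs => hY.trans_le (hS s hs).2.2.1
  have e1 : ∀ s ∈ S, (∑ n ∈ T, if Prim n then del (s * n) * wt t (Yf s) (N n) else 0) =
      ((Yf s ^ a * Real.exp (a ^ 2 / 4) : ℝ) : ℂ) *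
        ∑ n ∈ T', w n * M.del (s * n) * VV (Z s) (N n) := by
    intro s hs
    simp only [T', Finset.sum_filter, Finset.mul_sum]
    refine Finset.sum_congr rfl fun n _ => ?_
    by_cases h1 : Prim n
    · rw [if_pos h1, del_eq (hS s hs).1.1 h1]
      by_cases h2 : Squarefree n
      · rw [if_pos ⟨h1, h2⟩]
        have n0 : 0 < N n := zero_lt_one.trans_le (Vau.N1 h1)
        have h3 := W2.ln.shift (Yf s) (N n) (-a) (y0 s hs) n0
        simp only [neg_neg, even_two, Even.neg_pow] at h3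
        have h4 : VV (Yf s) (N n) =
            Yf s ^ a * Real.exp (a ^ 2 / 4) * (N n ^ (-a) * VV (Z s) (N n)) := by
          rw [Real.rpow_neg n0.le, mul_left_comm, ← h3, ← mul_assoc,
            inv_mul_cancel₀ (Real.rpow_pos_of_pos n0 a).ne', one_mul]
        simp only [wt, w]
        rw [h4]
        push_cast
        ring
      · rw [if_neg fun h => h2 h.2, M.del, if_neg fun h => h2 h.of_mul_right, zero_mul, mul_zero]
    · rw [if_neg h1, if_neg fun h => h1 h.1, mul_zero]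
  have h1 := hC S T' R X (L ^ (-a)) w Z hR hX (by positivity)
    (fun s hs => ⟨(hS s hs).1, (hS s hs).2.1, mul_pos (y0 s hs) (Real.exp_pos _)⟩) (fun n hn => by
      obtain ⟨b1, b2⟩ := Finset.mem_filter.1 hn
      have n0 : 0 < N n := zero_lt_one.trans_le (Vau.N1 b2.1)
      refine ⟨b2, (hT n b1).1, ?_⟩
      simp only [w]
      rw [norm_mul, norm_cpow_eq_rpow_re_of_pos n0, Complex.norm_real,
        Real.norm_of_nonneg (by positivity)]
      simp only [mul_re, ofReal_re, I_re, mul_zero, ofReal_im, I_im, mul_one, sub_self,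
        Real.rpow_zero, one_mul]
      exact Real.rpow_le_rpow_of_nonpos hL ((hT n b1).2 b2.1) (by linarith))
  calc _ ≤ ∑ s ∈ S, (2 * Y) ^ a * Real.exp (a ^ 2 / 4) *
        ‖∑ n ∈ T', w n * M.del (s * n) * VV (Z s) (N n)‖ := by
        refine Finset.sum_le_sum fun s hs => ?_
        have := y0 s hs
        rw [e1 s hs, norm_mul, Complex.norm_real, Real.norm_of_nonneg (by positivity)]
        gcongr
        exact (hS s hs).2.2.2
    _ ≤ (2 * Y) ^ a * Real.exp (a ^ 2 / 4) * (C * L ^ (-a) *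
        (Real.sqrt (R + X + (R * X) ^ (2 / 3 : ℝ)) * Real.sqrt R * Real.sqrt X)) := by
        rw [← Finset.mul_sum]
        gcongr
    _ = _ := by
        rw [Real.div_rpow (by positivity) hL.le, Real.rpow_neg hL.le]
        ring

lemma num (R Y c : ℝ) (hR : 1 ≤ R) (hY : 1 ≤ Y) (hc : 1 ≤ c) :
    Real.sqrt (R + c * Y + (R * (c * Y)) ^ (2 / 3 : ℝ)) * Real.sqrt R * Real.sqrt (c * Y) ≤
      c * (R * Y ^ (3 / 5 : ℝ) + R ^ (1 / 2 : ℝ) * Y + (R * Y) ^ (5 / 6 : ℝ)) := by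
  have R0 : 0 < R := by linarith
  have Y0 : 0 < Y := by linarith
  rw [← Real.sqrt_mul (by positivity), ← Real.sqrt_mul (by positivity)]
  refine Real.sqrt_le_iff.2 ⟨by positivity, ?_⟩
  have a1 : (R * (c * Y)) ^ (2 / 3 : ℝ) ≤ c * (R * Y) ^ (2 / 3 : ℝ) := by
    rw [show R * (c * Y) = c * (R * Y) by ring, Real.mul_rpow (by linarith) (by positivity)]
    refine mul_le_mul_of_nonneg_right ?_ (by positivity)
    calc c ^ (2 / 3 : ℝ) ≤ c ^ (1 : ℝ) := Real.rpow_le_rpow_of_exponent_le hc (by norm_num)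
      _ = c := Real.rpow_one c
  have a2 : Y ≤ (Y ^ (3 / 5 : ℝ)) ^ 2 := by
    rw [← Real.rpow_natCast, ← Real.rpow_mul Y0.le]
    calc Y = Y ^ (1 : ℝ) := (Real.rpow_one Y).symm
      _ ≤ _ := Real.rpow_le_rpow_of_exponent_le hY (by norm_num)
  have a3 : (R ^ (1 / 2 : ℝ)) ^ 2 = R := by
    rw [← Real.rpow_natCast, ← Real.rpow_mul R0.le]; norm_num
  have a4 : ((R * Y) ^ (5 / 6 : ℝ)) ^ 2 = (R * Y) ^ (2 / 3 : ℝ) * (R * Y) := by
    rw [← Real.rpow_natCast, ← Real.rpow_mul (by positivity), ← Real.rpow_add_one (by positivity)]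
    norm_num
  obtain ⟨x, hx⟩ : ∃ x, x = Y ^ (3 / 5 : ℝ) := ⟨_, rfl⟩
  obtain ⟨y, hy⟩ : ∃ x, x = R ^ (1 / 2 : ℝ) := ⟨_, rfl⟩
  obtain ⟨z, hz⟩ : ∃ x, x = (R * Y) ^ (5 / 6 : ℝ) := ⟨_, rfl⟩
  obtain ⟨q, hq⟩ : ∃ x, x = (R * Y) ^ (2 / 3 : ℝ) := ⟨_, rfl⟩
  have x0 : 0 ≤ x := by rw [hx]; positivity
  have y0 : 0 ≤ y := by rw [hy]; positivity
  have z0 : 0 ≤ z := by rw [hz]; positivity
  have q0 : 0 ≤ q := by rw [hq]; positivity
  rw [← hx] at a2
  rw [← hy] at a3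
  rw [← hz, ← hq] at a4
  rw [← hq] at a1
  rw [← hx, ← hy, ← hz]
  have b1 : R + c * Y + (R * (c * Y)) ^ (2 / 3 : ℝ) ≤ c * (R + Y + q) := by nlinarith
  have b2 : (R + Y + q) * (R * Y) ≤ (R * x + y * Y + z) ^ 2 := by
    have d1 : R * R * Y ≤ (R * x) ^ 2 := by rw [mul_pow]; nlinarith [mul_pos R0 R0]
    have d2 : Y * (R * Y) = (y * Y) ^ 2 := by rw [mul_pow, a3]; ring
    have d3 : 0 ≤ R * x * (y * Y) := by positivity
    have d4 : 0 ≤ R * x * z := by positivity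
    have d5 : 0 ≤ y * Y * z := by positivity
    nlinarith
  calc (R + c * Y + (R * (c * Y)) ^ (2 / 3 : ℝ)) * R * (c * Y)
      ≤ c * (R + Y + q) * R * (c * Y) := by gcongr
    _ = c ^ 2 * ((R + Y + q) * (R * Y)) := by ring
    _ ≤ c ^ 2 * (R * x + y * Y + z) ^ 2 := by gcongr
    _ = _ := by ring

lemma nwt (t Y x : ℝ) (hx : 0 < x) : ‖wt t Y x‖ = VV Y x := by
  unfold wt
  rw [norm_mul, norm_cpow_eq_rpow_re_of_pos hx, Complex.norm_real,
    Real.norm_of_nonneg (show 0 ≤ VV Y x from (Real.exp_pos _).le)]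
  simp

lemma fin : ∃ C : ℝ, 0 ≤ C ∧ ∀ (S T : Finset O) (R t Y : ℝ) (Yf : O → ℝ), 1 ≤ R → 1 ≤ Y →
    (∀ s ∈ S, SP s ∧ N s ≤ R ∧ Y ≤ Yf s ∧ Yf s ≤ 2 * Y) →
    ∑ s ∈ S, ‖∑ n ∈ T, if Prim n then del (s * n) * wt t (Yf s) (N n) else 0‖ ≤
      C * (R * Y ^ (3 / 5 : ℝ) + R ^ (1 / 2 : ℝ) * Y + (R * Y) ^ (5 / 6 : ℝ)) := by
  obtain ⟨C, hC0, hC⟩ := block
  refine ⟨C * (8 * Real.exp (3 ^ 2 / 4)) * 2 * 2, by positivity, fun S T R t Y Yf hR hY hS => ?_⟩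
  have Y0 : 0 < Y := by linarith
  obtain ⟨W, hW⟩ : ∃ W, W = R * Y ^ (3 / 5 : ℝ) + R ^ (1 / 2 : ℝ) * Y + (R * Y) ^ (5 / 6 : ℝ) :=
    ⟨_, rfl⟩
  have W0 : 0 ≤ W := by rw [hW]; positivity
  let j : O → ℕ := fun n => Nat.log 2 ⌊N n / Y⌋₊
  have e1 : ∀ s, (∑ n ∈ T, if Prim n then del (s * n) * wt t (Yf s) (N n) else 0) =
      ∑ i ∈ T.image j, ∑ n ∈ T with j n = i,
        if Prim n then del (s * n) * wt t (Yf s) (N n) else 0 :=
    fun s => (Finset.sum_fiberwise_of_maps_to (fun n hn => Finset.mem_image_of_mem j hn) _).symm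
  simp only [e1]
  refine (Finset.sum_le_sum fun s _ => norm_sum_le _ _).trans ?_
  rw [Finset.sum_comm, ← hW]
  have he : 1 ≤ Real.exp (3 ^ 2 / 4) := Real.one_le_exp (by norm_num)
  have h1 : ∀ i ∈ T.image j, ∑ s ∈ S, ‖∑ n ∈ T with j n = i,
      if Prim n then del (s * n) * wt t (Yf s) (N n) else 0‖ ≤
      C * (8 * Real.exp (3 ^ 2 / 4)) * 2 * W * (1 / 2) ^ i := by
    intro i _
    have p1 : (1 : ℝ) ≤ 2 ^ i := one_le_pow₀ (by norm_num)
    have up : ∀ n ∈ T.filter fun n => j n = i, N n ≤ 2 * 2 ^ i * Y := by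
      intro n hn
      obtain ⟨-, rfl⟩ := Finset.mem_filter.1 hn
      have n0 : 0 ≤ N n / Y := div_nonneg (Vau.N0 n) Y0.le
      have := (Nat.floor_lt n0).1 (Nat.lt_pow_succ_log_self one_lt_two ⌊N n / Y⌋₊)
      push_cast at this
      rw [pow_succ, div_lt_iff₀ Y0] at this
      simp only [j]
      linarith
    have h3 := num R Y (2 * 2 ^ i) hR hY (by linarith)
    rw [← hW] at h3
    have h4 : (1 / 8 : ℝ) ^ i * 2 ^ i ≤ (1 / 2) ^ i := by
      rw [← mul_pow]; exact pow_le_pow_left₀ (by norm_num) (by norm_num) i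
    have fin2 : ∀ V : ℝ, V ≤ 8 * Real.exp (3 ^ 2 / 4) * (1 / 8) ^ i →
        C * V * (Real.sqrt (R + 2 * 2 ^ i * Y + (R * (2 * 2 ^ i * Y)) ^ (2 / 3 : ℝ)) * Real.sqrt R *
          Real.sqrt (2 * 2 ^ i * Y)) ≤ C * (8 * Real.exp (3 ^ 2 / 4)) * 2 * W * (1 / 2) ^ i := by
      intro V hV
      calc _ ≤ C * (8 * Real.exp (3 ^ 2 / 4) * (1 / 8) ^ i) * (2 * 2 ^ i * W) := by gcongr
        _ = C * (8 * Real.exp (3 ^ 2 / 4)) * 2 * W * ((1 / 8) ^ i * 2 ^ i) := by ring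
        _ ≤ _ := by gcongr
    by_cases i0 : i = 0
    · refine (hC S _ R (2 * 2 ^ i * Y) Y 1 0 t Yf hR (by nlinarith) Y0 one_pos le_rfl hS
        fun n hn => ⟨up n hn, fun hp => Vau.N1 hp⟩).trans (fin2 _ ?_)
      subst i0
      simp only [Real.rpow_zero, pow_zero, one_mul, mul_one]
      norm_num
      linarith
    · refine (hC S _ R (2 * 2 ^ i * Y) Y (2 ^ i * Y) 3 t Yf hR (by nlinarith) Y0 (by positivity)
        (by norm_num) hS fun n hn => ⟨up n hn, fun _ => ?_⟩).trans (fin2 _ (le_of_eq ?_))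
      · obtain ⟨-, rfl⟩ := Finset.mem_filter.1 hn
        have n0 : 0 ≤ N n / Y := div_nonneg (Vau.N0 n) Y0.le
        have q : ⌊N n / Y⌋₊ ≠ 0 := fun q => i0 (by simp only [j, q, Nat.log_zero_right])
        have q1 : (2 : ℝ) ^ j n ≤ N n / Y := by
          exact_mod_cast (Nat.le_floor_iff n0).1 (Nat.pow_log_le_self 2 q)
        rwa [le_div_iff₀ Y0] at q1
      · have : 2 * Y / (2 ^ i * Y) = 2 * (1 / 2) ^ i := by
          rw [one_div, inv_pow]; field_simp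
        rw [this, show (3 : ℝ) = (3 : ℕ) by norm_num, Real.rpow_natCast,
          show (1 / 8 : ℝ) = (1 / 2) ^ 3 by norm_num, ← pow_mul, mul_comm 3 i, pow_mul]
        ring
  refine (Finset.sum_le_sum h1).trans ?_
  rw [← Finset.mul_sum]
  have h5 : ∑ i ∈ T.image j, (1 / 2 : ℝ) ^ i ≤ 2 :=
    (summable_geometric_two.sum_le_tsum _ fun _ _ => by positivity).trans_eq tsum_geometric_two
  calc _ ≤ C * (8 * Real.exp (3 ^ 2 / 4)) * 2 * W * 2 := by gcongr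
    _ = _ := by ring

end PLM

theorem plS (_hS : SLStmt) (h0 : P0Stmt) : PLStmt := by
  obtain ⟨C0, hC0, h0⟩ := h0
  obtain ⟨C1, hC1, h1⟩ := PLM.fin
  refine ⟨32 * C0 + C1, by positivity, fun S R t Y Yf hR hY hS => ?_⟩
  have R0 : 0 < R := by linarith
  have p1 : 0 ≤ R * Y ^ (3 / 5 : ℝ) := by positivity
  have p2 : 0 ≤ R ^ (1 / 2 : ℝ) * Y + (R * Y) ^ (5 / 6 : ℝ) := by positivity
  have y0 : ∀ s ∈ S, 0 < Yf s := fun s hs => hY.trans_le (hS s hs).2.2.1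
  rcases le_total Y 1 with hY1 | hY1
  · have c1 := W1.bas.b3.card_le R S R0.le fun s hs =>
      ⟨W1.bas.b2.ne s (hS s hs).1.1, (hS s hs).2.1⟩
    have a1 : Y ≤ Y ^ (3 / 5 : ℝ) := by
      calc Y = Y ^ (1 : ℝ) := (Real.rpow_one Y).symm
        _ ≤ _ := Real.rpow_le_rpow_of_exponent_ge hY hY1 (by norm_num)
    have a2 := Finset.sum_le_card_nsmul S (fun s => ‖P s t (Yf s)‖) (C0 * (2 * Y ^ (3 / 5 : ℝ)))
      fun s hs => (h0 s t _ (y0 s hs)).2.1.trans (mul_le_mul_of_nonneg_left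
        ((mul_le_of_le_one_right (y0 s hs).le (min_le_left _ _)).trans
          ((hS s hs).2.2.2.trans (by linarith))) hC0)
    rw [nsmul_eq_mul] at a2
    calc _ ≤ 16 * R * (C0 * (2 * Y ^ (3 / 5 : ℝ))) :=
          a2.trans (mul_le_mul_of_nonneg_right c1 (by positivity))
      _ = 32 * C0 * (R * Y ^ (3 / 5 : ℝ)) := by ring
      _ ≤ _ := mul_le_mul (by linarith) (by linarith) p1 (by positivity)
  · have lim : Tendsto (fun T : Finset O => ∑ s ∈ S,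
        ‖∑ n ∈ T, if Prim n then del (s * n) * wt t (Yf s) (N n) else 0‖) atTop
        (𝓝 (∑ s ∈ S, ‖P s t (Yf s)‖)) :=
      tendsto_finsetSum _ fun s hs => ((h0 s t _ (y0 s hs)).1.of_norm.hasSum).norm
    refine (le_of_tendsto' lim fun T => h1 S T R t Y Yf hR hY1 hS).trans ?_
    exact mul_le_mul_of_nonneg_right (by linarith) (by linarith)

end Vale.Agent.P006.MI
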