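import Vale.Agent.P006.MI

/-! P006 type I block: the residue. -/

noncomputable section

namespace Vale.Agent.P006.MI

open Vale.Agent.P026

theorem rhoS (hC : Z.CTStmt) (hT : Z.TIStmt) (hK : K.KStmt) : RHOStmt := by
  obtain ⟨ρ, h⟩ := hC
  have h1 := hK _ (hT ρ h)
  have h2 : ((Real.sqrt Real.pi * Real.exp (25 / 144) : ℝ) : ℂ) ≠ 0 :=
    Complex.ofReal_ne_zero.2 (by positivity)
  have h3 : ρ = (K.cstar * al : ℝ) := by
    refine mul_right_cancel₀ h2 (h1.trans ?_)
    rw [← Complex.ofReal_mul, al, K.rho0]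
    congr 1
    ring
  rwa [h3] at h

end Vale.Agent.P006.MI
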