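import Vale.Agent.P006.MI

/-! P006 type I block: the final balance. -/

noncomputable section
open Complex MeasureTheory
open scoped Classical ComplexConjugate

namespace Vale.Agent.P006.MI
open Vale.Agent.P026 Vau

namespace TIEM

lemma pt1 {n R E y : ℝ} {m : ℝ} (hn : 1 ≤ n) (hR : n ≤ R) (hm : 1 ≤ m) (hE : m ≤ E) (hy : 1 ≤ y) :
    Real.sqrt m * (n ^ (1 / 2 + 3 * (1 / 1000) : ℝ) * (y / m ^ 3) ^ (-(1 / 1000) : ℝ)) ≤
      (R * E) ^ (503 / 1000 : ℝ) := by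
  have m0 : 0 < m := by linarith
  have a1 : (y / m ^ 3) ^ (-(1 / 1000) : ℝ) ≤ m ^ (3 / 1000 : ℝ) := by
    have : (y / m ^ 3) ^ (-(1 / 1000) : ℝ) ≤ (1 / m ^ 3) ^ (-(1 / 1000) : ℝ) :=
      Real.rpow_le_rpow_of_nonpos (by positivity) (by gcongr) (by norm_num)
    refine this.trans (le_of_eq ?_)
    rw [one_div, ← Real.rpow_natCast, ← Real.rpow_neg m0.le, ← Real.rpow_mul m0.le]
    norm_num
  have a2 : Real.sqrt m * m ^ (3 / 1000 : ℝ) = m ^ (503 / 1000 : ℝ) := by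
    rw [Real.sqrt_eq_rpow, ← Real.rpow_add m0]; norm_num
  have R0 : 0 < R := by linarith
  have n0 : 0 < n := by linarith
  rw [Real.mul_rpow (by linarith) (by linarith),
    show (1 / 2 + 3 * (1 / 1000) : ℝ) = 503 / 1000 by norm_num]
  calc _ ≤ Real.sqrt m * (R ^ (503 / 1000 : ℝ) * m ^ (3 / 1000 : ℝ)) := by gcongr
    _ = R ^ (503 / 1000 : ℝ) * m ^ (503 / 1000 : ℝ) := by rw [← a2]; ring
    _ ≤ _ := by gcongr

lemma pt2 {m y Y : ℝ} (hm : 1 ≤ m) (hY : 1 ≤ Y) (h0 : 0 ≤ y) (hy : y ≤ 2 * Y) :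
    Real.sqrt m * (y / m ^ 3) ^ (11 / 20 : ℝ) ≤ 2 * Y ^ (11 / 20 : ℝ) * m ^ (-(23 / 20) : ℝ) := by
  have m0 : 0 < m := by linarith
  rw [Real.div_rpow h0 (by positivity), ← Real.rpow_natCast, ← Real.rpow_mul m0.le, Real.sqrt_eq_rpow,
    div_eq_mul_inv (y ^ _), ← Real.rpow_neg m0.le, mul_left_comm, ← Real.rpow_add m0]
  have : y ^ (11 / 20 : ℝ) ≤ 2 * Y ^ (11 / 20 : ℝ) := by
    calc _ ≤ (2 * Y) ^ (11 / 20 : ℝ) := by gcongr
      _ = 2 ^ (11 / 20 : ℝ) * Y ^ (11 / 20 : ℝ) := Real.mul_rpow (by norm_num) (by linarith)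
      _ ≤ 2 ^ (1 : ℝ) * Y ^ (11 / 20 : ℝ) := by gcongr <;> norm_num
      _ = _ := by rw [Real.rpow_one]
  refine (mul_le_mul_of_nonneg_right this (by positivity)).trans (le_of_eq ?_)
  norm_num

lemma tl {m R Y : ℝ} (hm : 1 ≤ m) (hR : 1 ≤ R) (hY : 1 ≤ Y) :
    m ^ (1 / 2 + 1 / 1000 : ℝ) * (R * (Y / m ^ 3) ^ (3 / 5 : ℝ) + R ^ (1 / 2 : ℝ) * (Y / m ^ 3) +
      (R * (Y / m ^ 3)) ^ (5 / 6 : ℝ)) = R * Y ^ (3 / 5 : ℝ) * m ^ (-(1299 / 1000) : ℝ) +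
      R ^ (1 / 2 : ℝ) * Y * m ^ (-(2499 / 1000) : ℝ) + (R * Y) ^ (5 / 6 : ℝ) * m ^ (-(1999 / 1000) : ℝ) := by
  have m0 : 0 < m := by linarith
  have e : ∀ x : ℝ, (m ^ 3) ^ x = m ^ (3 * x) := fun x => by
    rw [← Real.rpow_natCast, ← Real.rpow_mul m0.le]; norm_num
  have e1 : m ^ (-(1299 / 1000) : ℝ) = m ^ (1 / 2 + 1 / 1000 : ℝ) / (m ^ 3) ^ (3 / 5 : ℝ) := by
    rw [e, ← Real.rpow_sub m0]; norm_num
  have e2 : m ^ (-(2499 / 1000) : ℝ) = m ^ (1 / 2 + 1 / 1000 : ℝ) / m ^ 3 := by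
    rw [← Real.rpow_natCast, ← Real.rpow_sub m0]; norm_num
  have e3 : m ^ (-(1999 / 1000) : ℝ) = m ^ (1 / 2 + 1 / 1000 : ℝ) / (m ^ 3) ^ (5 / 6 : ℝ) := by
    rw [e, ← Real.rpow_sub m0]; norm_num
  rw [e1, e2, e3, ← mul_div_assoc R Y, Real.div_rpow (by linarith) (by positivity),
    Real.div_rpow (by positivity) (by positivity)]
  ring

lemma bal {R Y : ℝ} (hR : 1 ≤ R) (hY : 1 ≤ Y) (hl : (R * Y) ^ (46 / 100 : ℝ) ≤ Y) : ∃ E : ℝ, 1 ≤ E ∧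
    R * E * (R * E) ^ (503 / 1000 : ℝ) ≤ (R * Y) ^ (5 / 6 - 1 / 500 : ℝ) ∧
    R ^ (1 - (1 / 6 - 1 / 1000) : ℝ) * Y ^ (11 / 20 : ℝ) ≤ (R * Y) ^ (5 / 6 - 1 / 500 : ℝ) ∧
    R * Y ^ (3 / 5 : ℝ) * E ^ (1 - 1299 / 1000 : ℝ) ≤ (R * Y) ^ (5 / 6 - 1 / 500 : ℝ) ∧
    R ^ (1 / 2 : ℝ) * Y * E ^ (1 - 2499 / 1000 : ℝ) ≤ (R * Y) ^ (5 / 6 - 1 / 500 : ℝ) ∧
    (R * Y) ^ (5 / 6 : ℝ) * E ^ (1 - 1999 / 1000 : ℝ) ≤ (R * Y) ^ (5 / 6 - 1 / 500 : ℝ) := by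
  obtain ⟨a, rfl⟩ : ∃ a, R = Real.exp a := ⟨Real.log R, (Real.exp_log (by linarith)).symm⟩
  obtain ⟨b, rfl⟩ : ∃ b, Y = Real.exp b := ⟨Real.log Y, (Real.exp_log (by linarith)).symm⟩
  rw [Real.one_le_exp_iff] at hR hY
  rw [← Real.exp_add, ← Real.exp_mul, Real.exp_le_exp] at hl
  have c1 := le_max_left ((a + b) / 100) (109 / 900 * (a + b) - a / 3)
  have c2 := le_max_right ((a + b) / 100) (109 / 900 * (a + b) - a / 3)
  have c3 : max ((a + b) / 100) (109 / 900 * (a + b) - a / 3) ≤ 11 / 20 * (a + b) - a :=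
    max_le (by linarith) (by linarith)
  generalize max ((a + b) / 100) (109 / 900 * (a + b) - a / 3) = c at c1 c2 c3
  refine ⟨Real.exp c, Real.one_le_exp (by linarith), ?_, ?_, ?_, ?_, ?_⟩ <;>
    simp only [← Real.exp_add, ← Real.exp_mul, Real.exp_le_exp] <;> linarith

end TIEM

open TIEM in
theorem tieS (hD : DLStmt) (hC : CBStmt) (hP : PLStmt) (hZ : ZTStmt) : TIEStmt := by
  have hB := W1.bas
  obtain ⟨C1, C10, h1⟩ := hD (1 / 1000) (by norm_num) (by norm_num)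
  obtain ⟨C2, C20, h2⟩ := hC (1 / 1000) (by norm_num) (by norm_num)
  obtain ⟨C3, C30, h3⟩ := hP
  obtain ⟨z1, z2, z3⟩ := hZ
  obtain ⟨D1, D10, d1⟩ := z1 (1299 / 1000) (by norm_num)
  obtain ⟨D2, D20, d2⟩ := z1 (2499 / 1000) (by norm_num)
  obtain ⟨D3, D30, d3⟩ := z1 (1999 / 1000) (by norm_num)
  obtain ⟨D4, D40, d4⟩ := z2 (1 / 6 - 1 / 1000) (by norm_num)
  obtain ⟨D5, D50, d5⟩ := z3 (23 / 20) (by norm_num)
  refine ⟨C1 * (256 + 2 * D4 * D5) + C2 * (C3 * (D1 + D2 + D3)), by positivity,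
    fun S R t Y Yf hR hY hl hS => ?_⟩
  obtain ⟨E, hE, b1, b2, b3, b4, b5⟩ := bal hR hY hl
  set G := (R * Y) ^ (5 / 6 - 1 / 500 : ℝ) with hG
  have G0 : 0 ≤ G := by positivity
  have t1 : 1 ≤ (1 + |t|) ^ 4 := one_le_pow₀ (by linarith [abs_nonneg t])
  have cS : (S.card : ℝ) ≤ 16 * R := hB.b3.card_le R S (by linarith) fun s hs =>
    ⟨hB.b2.ne s (hS s hs).1.1, (hS s hs).2.1⟩
  have cE : ((PS E).card : ℝ) ≤ 16 * E := hB.b3.card_le E _ (by linarith) fun s hs =>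
    ⟨hB.b2.ne s (mem_PS.1 hs).1, (mem_PS.1 hs).2⟩
  have pt : ∑ s ∈ S, ∑ e ∈ PS E, Real.sqrt (N e) * ‖Dl s t (Yf s / N e ^ 3)‖ ≤
      C1 * (256 + 2 * D4 * D5) * (1 + |t|) ^ 4 * G := by
    calc _ ≤ ∑ s ∈ S, ∑ e ∈ PS E, C1 * (1 + |t|) ^ 4 * ((R * E) ^ (503 / 1000 : ℝ) +
          N s ^ (-(1 / 6 - 1 / 1000) : ℝ) * (2 * Y ^ (11 / 20 : ℝ) * N e ^ (-(23 / 20) : ℝ))) := by
          refine Finset.sum_le_sum fun s hs => Finset.sum_le_sum fun e he => ?_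
          obtain ⟨s1, s2, s3, s4⟩ := hS s hs
          have e1 := N1 (mem_PS.1 he).1
          have y1 : 1 ≤ Yf s := hY.trans s3
          have p1 := pt1 (N1 s1.1) s2 e1 (mem_PS.1 he).2 y1
          have p2 := pt2 e1 hY (by linarith) s4
          refine (mul_le_mul_of_nonneg_left (h1 s t _ s1 (by positivity)) (Real.sqrt_nonneg _)).trans ?_
          rw [mul_left_comm]
          refine mul_le_mul_of_nonneg_left ?_ (by positivity)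
          rw [mul_add, mul_left_comm _ (N s ^ (1 / 1000 - 1 / 6 : ℝ)),
            show (1 / 1000 - 1 / 6 : ℝ) = -(1 / 6 - 1 / 1000) by ring]
          exact add_le_add p1 (mul_le_mul_of_nonneg_left p2 (Real.rpow_nonneg (N0 _) _))
      _ = C1 * (1 + |t|) ^ 4 * (S.card * ((PS E).card * (R * E) ^ (503 / 1000 : ℝ)) +
          (∑ s ∈ S, N s ^ (-(1 / 6 - 1 / 1000) : ℝ)) *
            (2 * Y ^ (11 / 20 : ℝ) * ∑ e ∈ PS E, N e ^ (-(23 / 20) : ℝ))) := by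
          rw [Finset.sum_mul, ← nsmul_eq_mul, ← Finset.sum_const, ← Finset.sum_add_distrib,
            Finset.mul_sum]
          refine Finset.sum_congr rfl fun s _ => ?_
          rw [← Finset.mul_sum, Finset.sum_add_distrib, Finset.sum_const, nsmul_eq_mul,
            ← Finset.mul_sum, ← Finset.mul_sum]
      _ ≤ C1 * (1 + |t|) ^ 4 * (16 * R * (16 * E * (R * E) ^ (503 / 1000 : ℝ)) +
          (D4 * R ^ (1 - (1 / 6 - 1 / 1000) : ℝ)) * (2 * Y ^ (11 / 20 : ℝ) * D5)) := by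
          have q1 := d4 S R hR fun s hs => ⟨hB.b2.ne s (hS s hs).1.1, (hS s hs).2.1⟩
          have q2 := d5 (PS E)
          have q3 : 0 ≤ ∑ e ∈ PS E, N e ^ (-(23 / 20) : ℝ) :=
            Finset.sum_nonneg fun e _ => Real.rpow_nonneg (N0 _) _
          gcongr
      _ = C1 * (1 + |t|) ^ 4 * (256 * (R * E * (R * E) ^ (503 / 1000 : ℝ)) +
          2 * D4 * D5 * (R ^ (1 - (1 / 6 - 1 / 1000) : ℝ) * Y ^ (11 / 20 : ℝ))) := by ring
      _ ≤ C1 * (1 + |t|) ^ 4 * (256 * G + 2 * D4 * D5 * G) := by gcongr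
      _ = _ := by ring
  have tq : ∑ s ∈ S, (∑' u, if Prim u ∧ E < N u then
      N u ^ (1 / 2 + 1 / 1000 : ℝ) * ‖P s t (Yf s / N u ^ 3)‖ else 0) ≤ C3 * (D1 + D2 + D3) * G := by
    have y0 : ∀ s ∈ S, 0 < Yf s := fun s hs => by linarith [(hS s hs).2.2.1]
    rw [← Summable.tsum_finsetSum fun s hs => (h2 s t _ E (hS s hs).1 (y0 s hs) hE).1]
    obtain ⟨u1, v1⟩ := d1 E hE
    obtain ⟨u2, v2⟩ := d2 E hE
    obtain ⟨u3, v3⟩ := d3 E hE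
    have w1 := u1.mul_left (R * Y ^ (3 / 5 : ℝ))
    have w2 := u2.mul_left (R ^ (1 / 2 : ℝ) * Y)
    have w3 := u3.mul_left ((R * Y) ^ (5 / 6 : ℝ))
    refine (Summable.tsum_le_tsum (fun u => ?_)
      (summable_sum fun s hs => (h2 s t _ E (hS s hs).1 (y0 s hs) hE).1)
      (((w1.add w2).add w3).mul_left C3)).trans ?_
    · by_cases hu : Prim u ∧ E < N u
      · simp only [if_pos hu]
        have e1 := N1 hu.1
        rw [← Finset.mul_sum, ← tl e1 hR hY, mul_left_comm]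
        refine mul_le_mul_of_nonneg_left (h3 S R t _ (fun s => Yf s / N u ^ 3) hR (by positivity)
          fun s hs => ⟨(hS s hs).1, (hS s hs).2.1, ?_, ?_⟩) (by positivity)
        · have := (hS s hs).2.2.1
          gcongr
        · rw [← mul_div_assoc]
          have := (hS s hs).2.2.2
          gcongr
      · simp [hu]
    · rw [tsum_mul_left, (w1.add w2).tsum_add w3, w1.tsum_add w2, tsum_mul_left, tsum_mul_left,
        tsum_mul_left, mul_assoc C3]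
      refine mul_le_mul_of_nonneg_left ?_ C30
      calc _ ≤ R * Y ^ (3 / 5 : ℝ) * (D1 * E ^ (1 - 1299 / 1000 : ℝ)) +
            R ^ (1 / 2 : ℝ) * Y * (D2 * E ^ (1 - 2499 / 1000 : ℝ)) +
            (R * Y) ^ (5 / 6 : ℝ) * (D3 * E ^ (1 - 1999 / 1000 : ℝ)) := by gcongr
        _ = D1 * (R * Y ^ (3 / 5 : ℝ) * E ^ (1 - 1299 / 1000 : ℝ)) +
            D2 * (R ^ (1 / 2 : ℝ) * Y * E ^ (1 - 2499 / 1000 : ℝ)) +
            D3 * ((R * Y) ^ (5 / 6 : ℝ) * E ^ (1 - 1999 / 1000 : ℝ)) := by ring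
        _ ≤ D1 * G + D2 * G + D3 * G := by gcongr
        _ = _ := by ring
  calc _ ≤ ∑ s ∈ S, (∑ e ∈ PS E, Real.sqrt (N e) * ‖Dl s t (Yf s / N e ^ 3)‖ + C2 * ∑' u,
        if Prim u ∧ E < N u then N u ^ (1 / 2 + 1 / 1000 : ℝ) * ‖P s t (Yf s / N u ^ 3)‖ else 0) :=
        Finset.sum_le_sum fun s hs =>
          (h2 s t _ E (hS s hs).1 (by linarith [(hS s hs).2.2.1]) hE).2
    _ ≤ C1 * (256 + 2 * D4 * D5) * (1 + |t|) ^ 4 * G + C2 * (C3 * (D1 + D2 + D3) * G) := by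
        rw [Finset.sum_add_distrib, ← Finset.mul_sum]
        gcongr
    _ ≤ C1 * (256 + 2 * D4 * D5) * (1 + |t|) ^ 4 * G +
        C2 * (C3 * (D1 + D2 + D3) * G) * (1 + |t|) ^ 4 :=
        add_le_add le_rfl (le_mul_of_one_le_right (by positivity) t1)
    _ = _ := by ring

end Vale.Agent.P006.MI
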