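import Vale.Agent.P006.MI
import Vale.Agent.P006.A.TI

/-! P006 type I block: the twisted pointwise estimate. -/

noncomputable section
open Complex MeasureTheory Filter Topology
open scoped Classical ComplexConjugate

namespace Vale.Agent.P006.MI
open Vale.Agent.P026 Vale.Agent.P026.Z Vale.Agent.P026.Z.TIM

namespace TWM

theorem E_le {Y : ℝ} (hY : 0 < Y) (t : ℝ) {z : ℂ} (h1 : -1 ≤ z.re) (h2 : z.re ≤ 5 / 4) :
    ‖EL Y (z + t * I)‖ ≤ Real.exp 82 * Y ^ z.re * Real.exp (-(9 * |z.im + t|)) := by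
  simpa using EL_le hY (z := z + t * I) (by simpa) (by simpa)

theorem ex9 (u t : ℝ) : Real.exp (-(9 * |u + t|)) ≤ Real.exp (9 * |t|) * Real.exp (-(9 * |u|)) := by
  rw [← Real.exp_add]
  refine Real.exp_le_exp.2 ?_
  have := abs_sub (u + t) t
  rw [add_sub_cancel_right] at this
  linarith

theorem E_le' {Y : ℝ} (hY : 0 < Y) (t u : ℝ) : ‖EL Y ((5 / 4 : ℝ) + u * I + t * I)‖ ≤
    Real.exp 82 * Y ^ (5 / 4 : ℝ) * Real.exp (9 * |t|) * Real.exp (-|u|) := by
  refine (E_le hY t (by simp; norm_num) (by simp)).trans ?_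
  simp only [add_re, ofReal_re, mul_re, I_re, mul_zero, ofReal_im, I_im, mul_one, sub_self,
    add_zero, add_im, mul_im, zero_add]
  rw [mul_assoc _ _ (Real.exp (-|u|))]
  gcongr
  refine (ex9 u t).trans ?_
  gcongr
  linarith [abs_nonneg u]

theorem E_diff {Y : ℝ} (hY : 0 < Y) (t : ℝ) : Differentiable ℂ fun z : ℂ => EL Y (z + t * I) :=
  (EL_diff hY).comp (by fun_prop)

theorem mel {Y x : ℝ} (t : ℝ) (hY : 0 < Y) (hx : 0 < x) : wt t Y x =
    ka * ∫ u : ℝ, EL Y ((5 / 4 : ℝ) + u * I + t * I) * (x : ℂ) ^ (-(((5 / 4 : ℝ) : ℂ) + u * I)) := by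
  have := W2.ln.mel Y x (-(t * I)) (5 / 4) hY hx
  simp only [neg_neg, sub_neg_eq_add] at this
  rw [wt, this, ka, ofReal_inv]
  rfl

theorem step1 (s : O) (t : ℝ) {Y : ℝ} (hY : 0 < Y) : A s t Y =
    ka * ∫ u : ℝ, EL Y ((5 / 4 : ℝ) + u * I + t * I) * LS s ((5 / 4 : ℝ) + u * I) := by
  haveI := VIM.cntO
  have n0 : ∀ k, Prim k → 0 < N k := fun k hk =>
    lt_of_lt_of_le one_pos (W1.bas.b1.N_one_le _ (W1.bas.b2.ne _ hk))
  have := VIM.swap (F := fun (k : O) (u : ℝ) => EL Y ((5 / 4 : ℝ) + u * I + t * I) *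
      if Prim k then K.cc k * cub s k * (N k : ℂ) ^ (-(((5 / 4 : ℝ) : ℂ) + u * I)) else 0)
    (fun k => ((EL_diff hY).continuous.comp (by fun_prop)).mul (by
      split_ifs with h
      · exact continuous_const.mul (Continuous.const_cpow (by fun_prop)
          (Or.inl (ofReal_ne_zero.2 (n0 k h).ne')))
      · exact continuous_const))
    ((W1.bb.summ (7 / 4) (by norm_num)).mul_left
      (Real.exp 82 * Y ^ (5 / 4 : ℝ) * Real.exp (9 * |t|))) (fun k u => by
      have := VIM.N0 k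
      rw [norm_mul, mul_right_comm _ _ (Real.exp (-|u|))]
      refine mul_le_mul (E_le' hY t u) ?_ (norm_nonneg _) (by positivity)
      split_ifs with h
      · rw [norm_mul, norm_mul, norm_cpow_eq_rpow_re_of_pos (n0 k h),
          show (-(7 / 4) : ℝ) = -(1 / 2) + -(5 / 4) by norm_num, Real.rpow_add (n0 k h), ← mul_assoc]
        refine mul_le_mul ((mul_le_of_le_one_right (norm_nonneg _) (W1.bas.b6.norm_le _ _)).trans
          (ccle h)) (le_of_eq (by simp)) (by positivity) (by positivity)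
      · rw [norm_zero]; positivity)
  simp only [tsum_mul_left] at this
  unfold A LS
  rw [← this.tsum_eq, ← tsum_mul_left]
  refine tsum_congr fun k => ?_
  split_ifs with h
  · rw [TWM.mel t hY (n0 k h), mul_left_comm, ← integral_const_mul]
    congr 2
    ext u
    ring
  · simp

theorem vs (x Y : ℝ) : VV x Y = VV Y x := by rw [VV, VV, ← inv_div x Y, Real.log_inv, neg_sq]

theorem step2 (t : ℝ) {Y : ℝ} (hY : 0 < Y) :
    ka * ∫ u : ℝ, EL Y ((5 / 4 : ℝ) + u * I + t * I) / ((5 / 4 : ℝ) + u * I - 5 / 6) =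
      ∫ x in Set.Ioi (1 : ℝ), (VV x Y : ℂ) * (x : ℂ) ^ (-(-(5 / 6 + t * I) : ℂ) - 1) := by
  set H : ℝ → ℝ → ℂ := fun x u => EL Y ((5 / 4 : ℝ) + u * I + t * I) *
    (x : ℂ) ^ (-(((5 / 4 : ℝ) : ℂ) + u * I) + (5 / 6 - 1 : ℂ)) with hH
  have iH : Integrable (Function.uncurry H) ((volume.restrict (Set.Ioi (1 : ℝ))).prod volume) := by
    refine ((integrableOn_Ioi_rpow_of_lt (a := -17 / 12) (by norm_num) one_pos).mul_prod
      (VIM.int_exp.const_mul (Real.exp 82 * Y ^ (5 / 4 : ℝ) * Real.exp (9 * |t|)))).mono' ?_ ?_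
    · refine Measurable.aestronglyMeasurable ?_
      simp only [hH, Function.uncurry_def]
      exact (((EL_diff hY).continuous.comp (by fun_prop)).measurable).mul
        ((measurable_ofReal.comp measurable_fst).pow (by fun_prop))
    · refine (Measure.quasiMeasurePreserving_fst.ae (ae_restrict_mem measurableSet_Ioi)).mono
        fun p hp => ?_
      have p0 : 0 < p.1 := lt_trans one_pos hp
      simp only [hH, Function.uncurry_def, norm_mul, norm_cpow_eq_rpow_re_of_pos p0]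
      rw [mul_comm]
      refine mul_le_mul (le_of_eq ?_) (E_le' hY t _) (norm_nonneg _) (by positivity)
      congr 1
      simp
      norm_num
  have e1 : ∀ u : ℝ, EL Y ((5 / 4 : ℝ) + u * I + t * I) / ((5 / 4 : ℝ) + u * I - 5 / 6) =
      ∫ x in Set.Ioi (1 : ℝ), H x u := fun u => by
    simp only [hH]
    rw [integral_const_mul, integral_Ioi_cpow_of_lt (by simp; norm_num) one_pos, ofReal_one,
      one_cpow, neg_div, ← div_neg, mul_one_div]
    congr 1
    ring
  simp only [e1]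
  rw [← integral_integral_swap iH, ← integral_const_mul]
  refine setIntegral_congr_fun measurableSet_Ioi fun x hx => ?_
  have x0 : 0 < x := lt_trans one_pos hx
  have x1 := ofReal_ne_zero.2 x0.ne'
  have e2 : (VV x Y : ℂ) * (x : ℂ) ^ (-(-(5 / 6 + t * I) : ℂ) - 1) =
      wt t Y x * (x : ℂ) ^ (5 / 6 - 1 : ℂ) := by
    rw [vs, wt, mul_right_comm, ← cpow_add _ _ x1, mul_comm]
    congr 2
    ring
  rw [e2, TWM.mel t hY x0, mul_assoc, ← integral_mul_const]
  congr 2
  ext u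
  simp only [hH]
  rw [cpow_add _ _ x1, mul_assoc]

theorem step3 : ∃ c : ℝ, 0 ≤ c ∧ ∀ d t Y : ℝ, 0 < d → d ≤ 1 / 4 → 0 < Y →
    ‖(∫ x in Set.Ioi (1 : ℝ), (VV x Y : ℂ) * (x : ℂ) ^ (-(-(5 / 6 + t * I) : ℂ) - 1)) - mw t Y‖ ≤
      c * Y ^ (-d) := by
  have i0 : IntegrableOn (fun x : ℝ => x ^ (-1 / 6 : ℝ)) (Set.Ioc 0 1) :=
    (intervalIntegral.intervalIntegrable_rpow' (by norm_num)).1
  refine ⟨Real.exp 1 * ∫ x in Set.Ioc (0 : ℝ) 1, x ^ (-1 / 6 : ℝ), mul_nonneg (Real.exp_pos _).le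
    (setIntegral_nonneg measurableSet_Ioc fun x hx => Real.rpow_nonneg hx.1.le _),
    fun d t Y d0 d1 hY => ?_⟩
  have h := W2.ln.fwd Y (-(5 / 6 + t * I)) hY
  rw [neg_sq, neg_neg (5 / 6 + t * I : ℂ)] at h
  have i1 : IntegrableOn (fun x : ℝ => (VV x Y : ℂ) * (x : ℂ) ^ ((5 / 6 + t * I : ℂ) - 1))
      (Set.Ioi 0) := Integrable.of_integral_ne_zero (by
      rw [h]
      have := Real.pi_pos
      refine mul_ne_zero (mul_ne_zero (ofReal_ne_zero.2 (by positivity)) (exp_ne_zero _)) ?_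
      rw [Ne, cpow_eq_zero_iff, ofReal_eq_zero]
      exact fun c => hY.ne' c.1)
  rw [neg_neg, mw, ← h, ← Set.Ioc_union_Ioi_eq_Ioi zero_le_one,
    setIntegral_union Set.Ioc_disjoint_Ioi_same
    measurableSet_Ioi (i1.mono_set Set.Ioc_subset_Ioi_self)
    (i1.mono_set (Set.Ioi_subset_Ioi zero_le_one)), sub_add_cancel_right, norm_neg,
    mul_right_comm, ← integral_const_mul]
  refine norm_integral_le_of_norm_le (i0.const_mul _)
    ((ae_restrict_mem measurableSet_Ioc).mono fun x hx => ?_)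
  have a1 := W2.ln.le (-d) Y x hY hx.1
  have a2 : (Y / x) ^ (-d) ≤ Y ^ (-d) := Real.rpow_le_rpow_of_nonpos hY
    (le_div_self hY.le hx.1 hx.2) (by linarith)
  have a3 : Real.exp ((-d) ^ 2 / 4) ≤ Real.exp 1 := Real.exp_le_exp.2 (by nlinarith)
  have a4 := hx.1.le
  rw [norm_mul, norm_real, norm_cpow_eq_rpow_re_of_pos hx.1, vs,
    Real.norm_of_nonneg (show 0 ≤ VV Y x from (Real.exp_pos _).le)]
  refine mul_le_mul (a1.trans (by gcongr)) (le_of_eq ?_) (by positivity) (by positivity)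
  congr 1
  simp
  norm_num

end TWM

open TWM in
theorem twS : TWStmt := by
  intro ρ hρ d d0 d1
  obtain ⟨C, C0, hC⟩ := hρ d d0 d1
  obtain ⟨c, c0, hc⟩ := TWM.step3
  have I0 : 0 ≤ ∫ t : ℝ, Real.exp (-|t|) := integral_nonneg fun t => (Real.exp_pos _).le
  refine ⟨‖ka‖ * (Real.exp 82 * (C + ‖ρ‖) * 2 * ∫ t : ℝ, Real.exp (-|t|)) + ‖ρ‖ * c,
    by positivity, fun s t Y hs Y0 => ?_⟩
  have N1 := W1.bas.b1.N_one_le _ (W1.bas.b2.ne _ hs)
  obtain ⟨F, f1, f2, f3, f4, f5⟩ := hC s hs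
  obtain ⟨B, f2⟩ := f2 (-d)
  have m1 : ‖F (5 / 6)‖ ≤ ‖ρ‖ := by
    rw [f3, norm_mul]; exact mul_le_of_le_one_right (norm_nonneg _) (MM_le hs)
  set G : ℂ → ℂ := fun z => EL Y (z + t * I) * (F z - F (5 / 6)) with hG
  have dG : DifferentiableOn ℂ G {z | z.re < 3 / 2} :=
    (E_diff Y0 t).differentiableOn.mul (f1.sub_const _)
  have bG : ∀ z : ℂ, -d ≤ z.re → z.re ≤ 5 / 4 → ‖G z‖ ≤ Real.exp 82 * (Y ^ (5 / 4 : ℝ) + Y ^ (-d)) *
      Real.exp (9 * |t|) * (|B| + ‖ρ‖) * Real.exp (-|z.im|) := fun z a1 a2 => by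
    have e8 : 1 ≤ Real.exp (8 * |z.im|) := Real.one_le_exp (by positivity)
    have y1 : Y ^ z.re ≤ Y ^ (5 / 4 : ℝ) + Y ^ (-d) := by
      rcases le_total Y 1 with h | h
      · exact (Real.rpow_le_rpow_of_exponent_ge Y0 h a1).trans
          (le_add_of_nonneg_left (by positivity))
      · exact (Real.rpow_le_rpow_of_exponent_le h a2).trans
          (le_add_of_nonneg_right (by positivity))
    have y2 := ex9 z.im t
    calc ‖G z‖ ≤ Real.exp 82 * (Y ^ (5 / 4 : ℝ) + Y ^ (-d)) *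
          (Real.exp (9 * |t|) * Real.exp (-(9 * |z.im|))) *
          ((|B| + ‖ρ‖) * Real.exp (8 * |z.im|)) := by
          rw [hG, norm_mul]
          refine mul_le_mul ((E_le Y0 t (by linarith) a2).trans (by gcongr))
            ((norm_sub_le _ _).trans ?_) (norm_nonneg _) (by positivity)
          have := f2 z a1 a2
          nlinarith [le_abs_self B, norm_nonneg ρ]
      _ = _ := by
          rw [show -|z.im| = -(9 * |z.im|) + 8 * |z.im| by ring, Real.exp_add]; ring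
  have x := cross (a := -d) (by linarith) dG (by simp [hG]) bG
  have i1 := RESM.line dG (σ := 5 / 4) (by norm_num) (by norm_num) fun u => by
    simpa using bG ((5 / 4 : ℝ) + u * I) (by simp; linarith) (by simp)
  have i2 := RESM.line (E_diff Y0 t).differentiableOn (σ := 5 / 4) (by norm_num) (by norm_num)
    (E_le' Y0 t)
  have e : A s t Y = ka * (∫ u : ℝ, G ((-d : ℝ) + u * I) / ((-d : ℝ) + u * I - 5 / 6)) + F (5 / 6) *
      (ka * ∫ u : ℝ, EL Y ((5 / 4 : ℝ) + u * I + t * I) / ((5 / 4 : ℝ) + u * I - 5 / 6)) := by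
    rw [TWM.step1 s t Y0, x, mul_left_comm, ← mul_add, ← integral_const_mul (F (5 / 6)),
      ← integral_add i1 (i2.const_mul _)]
    congr 2
    ext u
    have := RESM.ne56 (σ := 5 / 4) (by norm_num) u
    simp only [hG]
    rw [f4 _ (by simp; norm_num) (by simp; norm_num)]
    generalize (((5 / 4 : ℝ) : ℂ) + u * I - 5 / 6) = w at this ⊢
    field_simp
    ring
  have P1 : 1 ≤ N s ^ (1 / 2 + 3 * d) := Real.one_le_rpow N1 (by positivity)
  have T1 : 1 ≤ (1 + |t|) ^ 4 := one_le_pow₀ (by linarith [abs_nonneg t])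
  set Q := N s ^ (1 / 2 + 3 * d) * (1 + |t|) ^ 4 with hQ
  have Q1 : 1 ≤ Q := one_le_mul_of_one_le_of_one_le P1 T1
  have b1 : ‖∫ u : ℝ, G ((-d : ℝ) + u * I) / ((-d : ℝ) + u * I - 5 / 6)‖ ≤
      Real.exp 82 * (C + ‖ρ‖) * 2 * (Q * Y ^ (-d)) * ∫ u : ℝ, Real.exp (-|u|) := by
    rw [← integral_add_right_eq_self (fun u : ℝ => Real.exp (-|u|)) t, ← integral_const_mul]
    refine norm_integral_le_of_norm_le ((VIM.int_exp.comp_add_right t).const_mul _)
      (.of_forall fun u => ?_)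
    have q : 1 / 2 ≤ ‖((-d : ℝ) : ℂ) + u * I - 5 / 6‖ := by
      have := Complex.abs_re_le_norm (((-d : ℝ) : ℂ) + u * I - 5 / 6)
      simp at this ⊢
      linarith [neg_le_abs (-d - 5 / 6)]
    have a1 := E_le Y0 t (z := (-d : ℝ) + u * I) (by simp; linarith) (by simp; linarith)
    simp only [add_re, ofReal_re, mul_re, I_re, mul_zero, ofReal_im, I_im, mul_one, sub_self,
      add_zero, add_im, mul_im, zero_add] at a1
    have e8 : 1 ≤ Real.exp (8 * |u + t|) := Real.one_le_exp (by positivity)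
    have a3 : (1 + |u|) ^ (3 + 4 * d) ≤ (1 + |t|) ^ 4 * Real.exp (8 * |u + t|) := by
      have b1 : 1 + |u| ≤ (1 + |t|) * Real.exp (2 * |u + t|) := by
        have := abs_sub (u + t) t
        rw [add_sub_cancel_right] at this
        nlinarith [Real.add_one_le_exp (2 * |u + t|), abs_nonneg t, abs_nonneg (u + t)]
      have b2 : Real.exp (8 * |u + t|) = Real.exp (2 * |u + t|) ^ 4 := by
        rw [← Real.exp_nat_mul]; congr 1; push_cast; ring
      rw [b2, ← mul_pow]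
      refine (Real.rpow_le_rpow_of_exponent_le (by linarith [abs_nonneg u])
        (show 3 + 4 * d ≤ (4 : ℕ) by push_cast; linarith)).trans ?_
      rw [Real.rpow_natCast]
      exact pow_le_pow_left₀ (by positivity) b1 4
    have a4 : ‖F ((-d : ℝ) + u * I)‖ ≤ C * Q * Real.exp (8 * |u + t|) := by
      rw [ofReal_neg]
      refine (f5 u).trans ?_
      rw [hQ, mul_assoc C, mul_assoc C, mul_assoc (N s ^ _)]
      gcongr
    rw [norm_div, div_le_iff₀ (by linarith)]
    calc _ ≤ Real.exp 82 * Y ^ (-d) * Real.exp (-(9 * |u + t|)) *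
          ((C + ‖ρ‖) * Q * Real.exp (8 * |u + t|)) := by
          rw [hG, norm_mul]
          refine mul_le_mul a1 ((norm_sub_le _ _).trans ?_) (norm_nonneg _) (by positivity)
          have : ‖ρ‖ * 1 ≤ ‖ρ‖ * (Q * Real.exp (8 * |u + t|)) := by
            gcongr
            exact one_le_mul_of_one_le_of_one_le Q1 e8
          nlinarith
      _ = Real.exp 82 * (C + ‖ρ‖) * 2 * (Q * Y ^ (-d)) * Real.exp (-|u + t|) * (1 / 2) := by
          rw [show -|u + t| = -(9 * |u + t|) + 8 * |u + t| by ring, Real.exp_add]; ring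
      _ ≤ _ := by gcongr
  have b2 := hc d t Y d0 d1 Y0
  rw [← TWM.step2 t Y0] at b2
  rw [e, ← f3, add_sub_assoc, ← mul_sub]
  refine (norm_add_le _ _).trans ?_
  rw [norm_mul, norm_mul]
  calc _ ≤ ‖ka‖ * (Real.exp 82 * (C + ‖ρ‖) * 2 * (Q * Y ^ (-d)) * ∫ t : ℝ, Real.exp (-|t|)) +
        ‖ρ‖ * (c * Y ^ (-d)) * Q := by
        refine add_le_add (by gcongr) ?_
        exact (mul_le_mul m1 b2 (norm_nonneg _) (norm_nonneg _)).trans
          (le_mul_of_one_le_right (by positivity) Q1)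
    _ = _ := by rw [hQ]; ring

end Vale.Agent.P006.MI
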