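import Vale.Agent.P006.MI

/-! P006 type I block, row W0: the twisted lattice sum. -/

noncomputable section
open Complex MeasureTheory Filter Topology
open scoped Classical ComplexConjugate

namespace Vale.Agent.P006.MI
open Vale.Agent.P026

namespace W0M

/-- weight in logarithmic coordinates -/
def g (L : ℝ) (z : ℂ) (v : ℝ) : ℂ := cexp (z * v - (v - L) ^ 2)
/-- its derivative -/
def D (L : ℝ) (z : ℂ) (v : ℝ) : ℂ := g L z v * (z - 2 * (v - L))

theorem gq (L z) : g L z = fun v : ℝ => cexp (-1 * v ^ 2 + (z + 2 * L) * v + -L ^ 2) := by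
  funext v
  rw [g]
  congr 1
  ring

theorem der (L z v) : HasDerivAt (g L z) (D L z v) v := by
  have := (((ofRealCLM.hasDerivAt (x := v)).const_mul z).sub
    (((ofRealCLM.hasDerivAt (x := v)).sub_const (L : ℂ)).pow 2)).cexp
  refine this.congr_deriv ?_
  simp [D, g]

theorem bd (L β v : ℝ) (z : ℂ) (h1 : |z.re| ≤ 1) (h2 : |β + z.re| ≤ 1) : Real.exp (β * v) * ‖D L z v‖ ≤
    (1 + |z.im|) * Real.exp ((β + z.re) * L + 9 / 2) * Real.exp (-(1 / 2) * (v - L) ^ 2) := by
  have a : ‖z - 2 * (v - L)‖ ≤ (1 + |z.im|) * Real.exp (2 * |v - L|) := by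
    have := norm_le_abs_re_add_abs_im z
    have := Real.add_one_le_exp (2 * |v - L|)
    refine (norm_sub_le _ _).trans ?_
    rw [norm_mul, Complex.norm_two, ← ofReal_sub, norm_real, Real.norm_eq_abs]
    nlinarith [abs_nonneg z.im, abs_nonneg (v - L)]
  have b : (z * v - (v - L) ^ 2 : ℂ).re = z.re * v - (v - L) ^ 2 := by
    rw [← ofReal_sub, ← ofReal_pow, sub_re, ofReal_re, re_mul_ofReal]
  have c : (β + z.re) * (v - L) ≤ |v - L| := (le_abs_self _).trans (by
    rw [abs_mul]
    exact mul_le_of_le_one_left (abs_nonneg _) h2)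
  rw [D, g, norm_mul, norm_exp, b]
  calc _ ≤ Real.exp (β * v) * (Real.exp (z.re * v - (v - L) ^ 2) * ((1 + |z.im|) * Real.exp (2 * |v - L|))) := by
        gcongr
    _ = (1 + |z.im|) * Real.exp (β * v + (z.re * v - (v - L) ^ 2) + 2 * |v - L|) := by
        rw [Real.exp_add, Real.exp_add]
        ring
    _ ≤ _ := by
        rw [mul_assoc (1 + |z.im|), ← Real.exp_add]
        refine mul_le_mul_of_nonneg_left (Real.exp_le_exp.2 ?_) (by positivity)
        nlinarith [sq_nonneg (|v - L| - 3), sq_abs (v - L)]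

theorem ga (L : ℝ) : Integrable fun v : ℝ => Real.exp (-(1 / 2) * (v - L) ^ 2) :=
  (integrable_exp_neg_mul_sq (b := 1 / 2) (by norm_num)).comp_sub_right L

theorem cD (L z) : Continuous (D L z) := by
  unfold D g
  fun_prop

theorem iD (L : ℝ) (z : ℂ) (h : |z.re| ≤ 1) : Integrable (D L z) :=
  ((ga L).const_mul _).mono' (cD L z).aestronglyMeasurable (ae_of_all _ fun v => by
    simpa using bd L 0 v z h (by simpa using h))

theorem ig (L : ℝ) (z : ℂ) : Integrable (g L z) := by
  rw [gq]
  exact integrable_cexp_quadratic' (by simp) _ _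

theorem hs {E : Type} [NormedAddCommGroup E] (s : Finset O) (c : E) :
    HasSum (fun l => if l ∈ s then c else 0) (s.card • c) := by
  have := hasSum_sum_of_ne_finset_zero (L := SummationFilter.unconditional O) (s := s)
    (f := fun l => if l ∈ s then c else 0) fun b hb => if_neg hb
  rwa [Finset.sum_congr rfl fun b hb => if_pos hb, Finset.sum_const] at this

end W0M

open W0M

theorem w0S (hG : GCStmt) : W0Stmt := by
  obtain ⟨C, C0, hC⟩ := hG
  have : Countable O := (QuadraticAlgebra.equivProd (-1 : ℤ) (-1)).injective.countable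
  have a0 : 0 < al := by
    unfold al
    positivity
  have J0 : 0 ≤ ∫ v : ℝ, Real.exp (-(1 / 2) * v ^ 2) := integral_nonneg fun _ => (Real.exp_pos _).le
  refine ⟨(C + al) * Real.exp (9 / 2) * ∫ v : ℝ, Real.exp (-(1 / 2) * v ^ 2), by positivity, fun t X hX => ?_⟩
  obtain ⟨z, hz⟩ : ∃ z : ℂ, z = (-1 / 6 : ℝ) + t * I := ⟨_, rfl⟩
  have zr : z.re = -1 / 6 := by simp [hz]
  have zi : z.im = t := by simp [hz]
  obtain ⟨L, hL⟩ : ∃ L, L = Real.log X := ⟨_, rfl⟩
  obtain ⟨A, hA⟩ : ∃ A : ℝ → ℝ, A = fun v => ((Vau.PS (Real.exp v)).card : ℝ) := ⟨_, rfl⟩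
  have mA : Measurable A := Monotone.measurable fun v w h => by
    rw [hA]
    exact Nat.cast_le.2 (Finset.card_le_card fun n hn => Vau.mem_PS.2
      ⟨(Vau.mem_PS.1 hn).1, (Vau.mem_PS.1 hn).2.trans (Real.exp_le_exp.2 h)⟩)
  have bA : ∀ v, |A v - al * Real.exp v| ≤ (C + al) * Real.exp (43 / 60 * v) := fun v => by
    have p := Real.exp_pos (43 / 60 * v)
    rcases le_or_gt 0 v with h | h
    · rw [hA]
      refine (hC _ (Real.exp_pos v).le).trans ?_
      rw [← Real.exp_half]
      gcongr <;> linarith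
    · have : A v = 0 := by
        simp only [hA, Nat.cast_eq_zero, Finset.card_eq_zero]
        exact Finset.eq_empty_of_forall_notMem fun n hn => not_lt.2 ((Vau.N1 (Vau.mem_PS.1 hn).1).trans
          (Vau.mem_PS.1 hn).2) (Real.exp_lt_one_iff.2 h)
      rw [this, zero_sub, abs_neg, abs_of_pos (by positivity)]
      gcongr <;> linarith
  have bE : ∀ v, ‖((A v - al * Real.exp v : ℝ) : ℂ) * D L z v‖ ≤ (C + al) * ((1 + |t|) *
      Real.exp (11 / 20 * L + 9 / 2) * Real.exp (-(1 / 2) * (v - L) ^ 2)) := fun v => by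
    have := bd L (43 / 60) v z (by rw [zr, abs_le]; norm_num) (by rw [zr, abs_le]; norm_num)
    rw [zr, zi, show (43 / 60 + -1 / 6 : ℝ) = 11 / 20 by norm_num] at this
    rw [norm_mul, norm_real]
    refine (mul_le_mul_of_nonneg_right (bA v) (norm_nonneg _)).trans ?_
    rw [mul_assoc]
    gcongr
  have ib := ((ga L).const_mul ((1 + |t|) * Real.exp (11 / 20 * L + 9 / 2))).const_mul (C + al)
  have iE : Integrable fun v => ((A v - al * Real.exp v : ℝ) : ℂ) * D L z v :=
    ib.mono' ((measurable_ofReal.comp (mA.sub (by fun_prop))).aestronglyMeasurable.mul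
      (cD L z).aestronglyMeasurable) (ae_of_all _ bE)
  have i0 := iD L z (by rw [zr, abs_le]; norm_num)
  have i1 := iD L (z + 1) (by rw [add_re, zr, one_re, abs_le]; norm_num)
  have e1 : (fun v => (Vau.PS (Real.exp v)).card • D L z v) = fun v =>
      ((A v - al * Real.exp v : ℝ) : ℂ) * D L z v + al * (D L (z + 1) v - g L (z + 1) v) := by
    funext v
    have : g L (z + 1) v = cexp v * g L z v := by
      rw [g, g, ← Complex.exp_add]
      congr 1
      ring
    simp only [hA, D, this, nsmul_eq_mul]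
    push_cast
    ring
  have i2 : Integrable fun v => (al : ℂ) * (D L (z + 1) v - g L (z + 1) v) := (i1.sub (ig L _)).const_mul _
  have iA : Integrable fun v => (Vau.PS (Real.exp v)).card • D L z v := e1 ▸ iE.add i2
  have eF : ∀ l, (fun v => if l ∈ Vau.PS (Real.exp v) then D L z v else 0) =
      if Prim l then (Set.Ici (Real.log (N l))).indicator (D L z) else 0 := fun l => by
    funext v
    split_ifs with h c c
    · exact (Set.indicator_of_mem ((Real.log_le_iff_le_exp (one_pos.trans_le (Vau.N1 c))).2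
        (Vau.mem_PS.1 h).2) _).symm
    · exact absurd (Vau.mem_PS.1 h).1 c
    · exact (Set.indicator_of_notMem (fun k => h (Vau.mem_PS.2
        ⟨c, (Real.log_le_iff_le_exp (one_pos.trans_le (Vau.N1 c))).1 k⟩)) _).symm
    · rfl
  have S := hasSum_integral_of_dominated_convergence (μ := volume)
    (F := fun l v => if l ∈ Vau.PS (Real.exp v) then D L z v else 0)
    (fun l v => if l ∈ Vau.PS (Real.exp v) then ‖D L z v‖ else 0) (fun l => by
      rw [eF]
      split_ifs
      · exact i0.1.indicator measurableSet_Ici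
      · exact aestronglyMeasurable_zero) (fun l => ae_of_all _ fun v => by split_ifs <;> simp)
    (ae_of_all _ fun v => (hs _ _).summable) (iA.norm.congr (ae_of_all _ fun v => by
      simp only [(hs _ _).tsum_eq, nsmul_eq_mul, norm_mul, Complex.norm_natCast]))
    (ae_of_all _ fun v => hs _ _)
  have e2 : ∀ l, (if Prim l then ((N l ^ (-1 / 6 : ℝ) : ℝ) : ℂ) * wt t X (N l) else 0) =
      -∫ v, if l ∈ Vau.PS (Real.exp v) then D L z v else 0 := fun l => by
    rw [eF]
    split_ifs with c
    · have p := one_pos.trans_le (Vau.N1 c)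
      rw [integral_indicator measurableSet_Ici, integral_Ici_eq_integral_Ioi,
        integral_Ioi_of_hasDerivAt_of_tendsto' (fun v _ => der L z v) i0.integrableOn
          (tendsto_zero_of_hasDerivAt_of_integrableOn_Ioi (a := 0) (fun v _ => der L z v) i0.integrableOn
            (ig L z).integrableOn), zero_sub, neg_neg, wt, VV, g, Real.rpow_def_of_pos p,
        cpow_def_of_ne_zero (ofReal_ne_zero.2 p.ne'), ← ofReal_log p.le, Real.log_div p.ne' hX.ne', ofReal_exp,
        ofReal_exp, ← Complex.exp_add, ← Complex.exp_add, hz, hL]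
      congr 1
      push_cast
      ring
    · simp
  have e3 : ∫ v, g L (z + 1) v = mw t X := by
    rw [gq, integral_cexp_quadratic (by simp), mw, mul_assoc, cpow_def_of_ne_zero (ofReal_ne_zero.2 hX.ne'),
      ← ofReal_log hX.le, ← Complex.exp_add, Real.sqrt_eq_rpow, ofReal_cpow Real.pi_pos.le, hz, hL]
    congr 2
    · simp
    · simp
    · push_cast
      ring
  rw [tsum_congr e2, tsum_neg, S.tsum_eq, e1, integral_add iE i2, integral_const_mul, integral_sub i1 (ig L _),
    integral_eq_zero_of_hasDerivAt_of_integrable (der L _) i1 (ig L _), e3,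
    show ∀ x y : ℂ, -(x + al * (0 - y)) - al * y = -x from fun x y => by ring, norm_neg]
  refine (norm_integral_le_of_norm_le ib (ae_of_all _ bE)).trans_eq ?_
  rw [integral_const_mul, integral_const_mul,
    integral_sub_right_eq_self (fun v : ℝ => Real.exp (-(1 / 2) * v ^ 2)) L, Real.exp_add, Real.rpow_def_of_pos hX,
    hL, mul_comm (11 / 20)]
  ring

end Vale.Agent.P006.MI
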