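import Vale.Agent.P006.MI
import Vale.Agent.P006.K.W8

/-! P006 type I block: the twisted mean value of `ww` over elements coprime to `s`. -/

noncomputable section
open Complex MeasureTheory Filter Topology
open scoped Classical ComplexConjugate

namespace Vale.Agent.P006.MI
open Vale.Agent.P026

namespace W8M
open K hiding W0Stmt W8Stmt
open K.W8M hiding ph AA BS ph_mul ph_le ph_summ AA_step AA_est BS_eq TT_eq

def tw (t x : ℝ) : ℂ := (x : ℂ) ^ (t * I)
def ph (t X : ℝ) (l : O) : ℂ := K.W8M.ph X l * tw t (N l / X)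
def AA (t : ℝ) (s : O) (X : ℝ) : ℂ := ∑' l, if Prim l ∧ IsCoprime l s then ph t X l else 0
def BS (t : ℝ) (s : O) (X : ℝ) : ℂ :=
  ∑' l, if Prim l ∧ IsCoprime l s ∧ Squarefree l then ph t X l else 0
def m0 (t : ℝ) : ℂ := (Real.sqrt Real.pi : ℂ) * cexp ((5 / 6 + t * I) ^ 2 / 4)

theorem tw_norm (t : ℝ) {x : ℝ} (hx : 0 < x) : ‖tw t x‖ = 1 := by
  rw [tw, norm_cpow_eq_rpow_re_of_pos hx]; simp

theorem tw_div (t : ℝ) {x X : ℝ} (hx : 0 ≤ x) (hX : 0 < X) : tw t x = tw t X * tw t (x / X) := by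
  rw [tw, tw, tw, ← mul_cpow_ofReal_nonneg hX.le (by positivity), ← ofReal_mul,
    mul_div_cancel₀ _ hX.ne']

theorem mw_eq (t : ℝ) {X : ℝ} (hX : 0 < X) :
    mw t X = tw t X * (m0 t * ((X ^ (5 / 6 : ℝ) : ℝ) : ℂ)) := by
  rw [mw, m0, tw, cpow_add _ _ (ofReal_ne_zero.2 hX.ne'), ofReal_cpow hX.le]
  push_cast; ring

theorem wt_eq (t : ℝ) {x X : ℝ} (hx : 0 ≤ x) (hX : 0 < X) :
    wt t X x = tw t X * (VV X x * tw t (x / X)) := by
  have := tw_div t hx hX
  rw [wt, mul_left_comm, ← this, mul_comm]; rfl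

theorem ph_mul (E : Env) (t : ℝ) {X : ℝ} (hX : 0 < X) {c l : O} (hc : c ≠ 0) (hl : l ≠ 0) :
    ph t X (c * l) = ((N c ^ (-1 / 6 : ℝ) : ℝ) : ℂ) * ph t (X / N c) l := by
  rw [ph, ph, K.W8M.ph_mul E hX hc hl, E.hB.b1.N_mul, mul_assoc, div_div_eq_mul_div,
    mul_comm (N c) (N l)]

theorem ph_le (E : Env) (t : ℝ) {X : ℝ} (hX : 0 < X) (A : ℝ) {l : O} (hl : l ≠ 0) :
    ‖ph t X l‖ ≤ Real.exp (A ^ 2 / 4) * X ^ A * N l ^ (-A) := by
  have a2 := E.hB.b1.N_one_le l hl
  rw [ph, norm_mul, tw_norm t (by positivity), mul_one]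
  exact K.W8M.ph_le E hX A hl

theorem ph_summ (E : Env) (t : ℝ) {X : ℝ} (hX : 0 < X) (S : O → Prop) [DecidablePred S]
    (hS : ∀ l, S l → l ≠ 0) : Summable fun l => if S l then ph t X l else 0 := by
  refine ((E.hB.b3.summ 2 (by norm_num)).mul_left
    (Real.exp (2 ^ 2 / 4) * X ^ (2 : ℝ))).of_norm_bounded fun l => ?_
  split_ifs with h
  · exact ph_le E t hX 2 (hS l h)
  · rw [norm_zero]; have := N0 l; positivity

theorem AA_step (E : Env) (t : ℝ) {X : ℝ} (hX : 0 < X) {p a : O} (hp : Prime p) (hq : Prim p)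
    (h : ¬ p ∣ a) :
    AA t (p * a) X = AA t a X - ((N p ^ (-1 / 6 : ℝ) : ℝ) : ℂ) * AA t a (X / N p) := by
  have e := ZKM.tsum_split (ph_summ E t hX (fun l => Prim l ∧ IsCoprime l a)
    fun l hl => E.hB.b2.ne l hl.1) hp.ne_zero
  have e1 : (∑' n, if p ∣ n then 0 else if Prim n ∧ IsCoprime n a then ph t X n else 0) =
      AA t (p * a) X := tsum_congr fun n => by
    rw [cop_iff hp]
    by_cases c : p ∣ n <;> simp [c]
  have e2 : (∑' m, if Prim (p * m) ∧ IsCoprime (p * m) a then ph t X (p * m) else 0) =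
      ((N p ^ (-1 / 6 : ℝ) : ℝ) : ℂ) * AA t a (X / N p) := by
    rw [AA, ← tsum_mul_left]
    refine tsum_congr fun n => ?_
    rw [ZKM.prim_iff E.hB hq, cop_mul hp h]
    split_ifs with c
    · exact ph_mul E t hX hp.ne_zero (E.hB.b2.ne n c.1)
    · simp
  rw [e1, e2] at e
  have e3 : AA t a X = _ := e
  rw [e3]; ring

theorem AA_est (E : Env) (h0 : W0Stmt) : ∃ C : ℝ, 0 ≤ C ∧ ∀ (t : ℝ) s, Prim s → ∀ X : ℝ, 0 < X →
    ‖AA t s X - ((al * EP s : ℝ) : ℂ) * m0 t * ((X ^ (5 / 6 : ℝ) : ℝ) : ℂ)‖ ≤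
      C * (1 + |t|) * 2 ^ (pf s).card * X ^ (11 / 20 : ℝ) := by
  obtain ⟨C, hC, h⟩ := h0
  refine ⟨C, hC, fun t => E.hB.b2.ind1 _ (fun X hX => ?_) fun p a hp hq ha ih X hX => ?_⟩
  · have e : (∑' l, if Prim l then ((N l ^ (-1 / 6 : ℝ) : ℝ) : ℂ) * wt t X (N l) else 0) =
        tw t X * AA t 1 X := by
      rw [AA, ← tsum_mul_left]
      refine tsum_congr fun l => ?_
      by_cases c : Prim l
      · rw [if_pos c, if_pos ⟨c, isCoprime_one_right⟩, wt_eq t (N0 l) hX, ph, K.W8M.ph]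
        push_cast; ring
      · rw [if_neg c, if_neg fun h => c h.1, mul_zero]
    have h1 := h t X hX
    rw [e, mw_eq t hX, mul_left_comm (al : ℂ), ← mul_sub, norm_mul, tw_norm t hX, one_mul] at h1
    rw [EP, E.h8.pf_one, Finset.prod_empty, Finset.card_empty, mul_one, pow_zero, mul_one,
      mul_assoc (al : ℂ)]
    exact h1
  · have a0 := E.hB.b2.ne a ha
    by_cases c : p ∣ a
    · have e1 : pf (p * a) = pf a := by
        rw [pf_step E hp hq ha, Finset.insert_eq_of_mem ((E.h8.mem a p a0).2 ⟨hp, hq, c⟩)]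
      have e2 : AA t (p * a) X = AA t a X := tsum_congr fun n => by rw [cop_iff' hp c]
      rw [e2, EP, e1]
      exact ih X hX
    · have nm : p ∉ pf a := fun hm => c ((E.h8.mem a p a0).1 hm).2.2
      have a1 := E.hB.b1.N_one_le p hp.ne_zero
      have a2 : 0 < N p := by linarith
      have e1 : EP (p * a) = (1 - (N p)⁻¹) * EP a := by
        rw [EP, pf_step E hp hq ha, Finset.prod_insert nm, EP]
      have e2 : N p ^ (-1 / 6 : ℝ) * (X / N p) ^ (5 / 6 : ℝ) = (N p)⁻¹ * X ^ (5 / 6 : ℝ) := by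
        rw [Real.div_rpow hX.le a2.le, div_eq_mul_inv (X ^ (5 / 6 : ℝ)), ← Real.rpow_neg a2.le, mul_left_comm,
          ← Real.rpow_add a2, ← Real.rpow_neg_one, mul_comm]
        norm_num
      have e2' := congrArg (fun x : ℝ => (x : ℂ)) e2
      have i1 := ih X hX
      have i2 := ih (X / N p) (by positivity)
      have a3 : N p ^ (-1 / 6 : ℝ) ≤ 1 := Real.rpow_le_one_of_one_le_of_nonpos a1 (by norm_num)
      have a4 : (X / N p) ^ (11 / 20 : ℝ) ≤ X ^ (11 / 20 : ℝ) :=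
        Real.rpow_le_rpow (by positivity) (div_le_self hX.le a1) (by norm_num)
      rw [AA_step E t hX hp hq c, e1, pf_step E hp hq ha, Finset.card_insert_of_notMem nm]
      have e3 : AA t a X - ((N p ^ (-1 / 6 : ℝ) : ℝ) : ℂ) * AA t a (X / N p) -
          ((al * ((1 - (N p)⁻¹) * EP a) : ℝ) : ℂ) * m0 t * ((X ^ (5 / 6 : ℝ) : ℝ) : ℂ) =
          (AA t a X - ((al * EP a : ℝ) : ℂ) * m0 t * ((X ^ (5 / 6 : ℝ) : ℝ) : ℂ)) -
          ((N p ^ (-1 / 6 : ℝ) : ℝ) : ℂ) * (AA t a (X / N p) -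
            ((al * EP a : ℝ) : ℂ) * m0 t * (((X / N p) ^ (5 / 6 : ℝ) : ℝ) : ℂ)) := by
        simp only [ofReal_mul, ofReal_sub, ofReal_one] at e2' ⊢
        linear_combination (-(al : ℂ) * EP a * m0 t) * e2'
      rw [e3]
      refine (norm_sub_le _ _).trans ?_
      rw [norm_mul, norm_real, Real.norm_of_nonneg (Real.rpow_nonneg a2.le _), pow_succ]
      have b1 : 0 ≤ C * (1 + |t|) * 2 ^ (pf a).card := by positivity
      have b2 := (mul_le_of_le_one_left (norm_nonneg _) a3).trans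
        (i2.trans (mul_le_mul_of_nonneg_left a4 b1))
      linarith

theorem BS_eq (E : Env) (r : ℝ) (s : O) {X : ℝ} (hX : 0 < X) :
    BS r s X = ∑' t, cM s t * AA r s (X / N t ^ 2) := by
  have hB := E.hB
  set H : O → O → ℂ := fun t n =>
    if (Prim t ∧ t ^ 2 ∣ n) ∧ Prim n ∧ IsCoprime n s then mu t * ph r X n else 0 with hH
  have s2 := hB.b3.summ 2 (by norm_num)
  have hs : Summable (Function.uncurry H) := by
    refine ((s2.mul_of_nonneg s2 (fun a => Real.rpow_nonneg (N0 a) _)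
      (fun a => Real.rpow_nonneg (N0 a) _)).mul_left
      (Real.exp (4 ^ 2 / 4) * X ^ (4 : ℝ))).of_norm_bounded fun x => ?_
    have := N0 x.1
    have := N0 x.2
    simp only [Function.uncurry, hH]
    split_ifs with c
    · have n0 := hB.b2.ne _ c.2.1
      have a1 := hB.b1.N_one_le _ n0
      have a2 := hB.b1.N_one_le _ (hB.b2.ne _ c.1.1)
      have a3 : N x.1 ≤ N x.2 := Vau.N_dvd n0 ((dvd_pow_self _ two_ne_zero).trans c.1.2)
      have a4 : N x.2 ^ (-4 : ℝ) ≤ N x.1 ^ (-2 : ℝ) * N x.2 ^ (-2 : ℝ) := by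
        have : N x.2 ^ (-4 : ℝ) = N x.2 ^ (-2 : ℝ) * N x.2 ^ (-2 : ℝ) := by
          rw [← Real.rpow_add (by linarith)]; norm_num
        rw [this]
        exact mul_le_mul_of_nonneg_right
          (Real.rpow_le_rpow_of_nonpos (by linarith) a3 (by norm_num)) (by positivity)
      rw [norm_mul]
      refine (mul_le_of_le_one_left (norm_nonneg _) (ZKM.norm_mu _)).trans
        ((ph_le E r hX 4 n0).trans ?_)
      exact mul_le_mul_of_nonneg_left a4 (by positivity)
    · rw [norm_zero]; positivity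
  have e1 : BS r s X = ∑' n, ∑' t, H t n := by
    refine tsum_congr fun n => ?_
    by_cases c : Prim n ∧ IsCoprime n s
    · have : ∀ t, H t n = (if Prim t ∧ t ^ 2 ∣ n then mu t else 0) * ph r X n := fun t => by
        simp only [hH, c, and_true]
        split_ifs <;> simp
      simp only [this, tsum_mul_right, mob E c.1, c.1, c.2, true_and]
      split_ifs <;> simp
    · have : ∀ t, H t n = 0 := fun t => if_neg fun h => c h.2
      simp only [this, tsum_zero]
      exact if_neg fun h => c ⟨h.1, h.2.1⟩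
  rw [e1, hs.tsum_comm]
  refine tsum_congr fun t => ?_
  by_cases c : Prim t
  · have t0 := pow_ne_zero 2 (hB.b2.ne t c)
    rw [← (mul_right_injective₀ t0).tsum_eq (f := H t) fun n hn => ?_, AA, ← tsum_mul_left]
    · refine tsum_congr fun l => ?_
      simp only [hH, cM, c, dvd_mul_right, true_and, ZKM.prim_iff hB (hB.b2.pow t 2 c),
        IsCoprime.mul_left_iff, IsCoprime.pow_left_iff two_pos]
      by_cases c1 : Prim l
      · have e : (N t ^ 2) ^ (-1 / 6 : ℝ) = N t ^ (-1 / 3 : ℝ) := by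
          rw [← Real.rpow_natCast, ← Real.rpow_mul (N0 t)]; norm_num
        rw [ph_mul E r hX t0 (hB.b2.ne l c1), hB.b1.N_pow, e]
        by_cases c2 : IsCoprime t s <;> by_cases c3 : IsCoprime l s <;> simp [c1, c2, c3, mul_assoc]
      · simp [c1]
    · by_contra h
      exact hn (if_neg fun ⟨⟨_, m, hm⟩, _⟩ => h ⟨m, hm.symm⟩)
  · simp [hH, cM, c]

theorem TT_eq (E : Env) (t : ℝ) (s : O) {X : ℝ} (hX : 0 < X) :
    (∑' k, ((if Prim k ∧ IsCoprime k s then ww k * VV X (N k) else 0 : ℝ) : ℂ) * tw t (N k / X)) =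
      ∑' u, cZ s u * BS t s (X / N u ^ 3) := by
  have hB := E.hB
  set f : O → ℂ := fun k => if Prim k ∧ IsCoprime k s then
    conj (bb k) * ((N k ^ (-7 / 6 : ℝ) * VV X (N k) : ℝ) : ℂ) * tw t (N k / X) else 0 with hf
  have e0 : ∀ k, bb k * f k =
      ((if Prim k ∧ IsCoprime k s then ww k * VV X (N k) else 0 : ℝ) : ℂ) * tw t (N k / X) := fun k => by
    simp only [hf]
    split_ifs
    · rw [← mul_assoc, ← mul_assoc, mul_conj', ww]; push_cast; ring
    · simp
  have hs : Summable fun k => bb k * f k := by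
    obtain ⟨C, hC⟩ := E.hL.sum (1 / 6)
    refine (hC X hX).1.of_norm_bounded fun k => ?_
    rw [e0, norm_mul, norm_real]
    have := N0 k
    have := VV0 X (N k)
    split_ifs with c1 c2
    · exact absurd c2 (hB.b2.ne k c1.1)
    · have a1 := hB.b1.N_one_le k c2
      have a2 : ww k ≤ N k ^ (1 / 6 : ℝ) := by
        have b1 : N k ^ (1 / 6 : ℝ) = (N k ^ (2 / 3 : ℝ)) ^ 2 * N k ^ (-7 / 6 : ℝ) := by
          rw [← Real.rpow_natCast, ← Real.rpow_mul (N0 k), ← Real.rpow_add (by linarith)]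
          norm_num
        rw [b1, ww]
        exact mul_le_mul_of_nonneg_right (pow_le_pow_left₀ (norm_nonneg _) (E.hb.norm_le k) 2)
          (by positivity)
      have a3 : 0 ≤ ww k := by unfold ww; positivity
      rw [Real.norm_of_nonneg (by positivity), tw_norm t (by positivity), mul_one]
      exact mul_le_mul_of_nonneg_right a2 (by positivity)
    · simp
    · rw [norm_zero, zero_mul]; positivity
  rw [← tsum_congr e0, E.hb.tsum_eq f hs]
  refine tsum_congr fun u => ?_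
  rw [BS, ← tsum_mul_left]
  refine tsum_congr fun n => ?_
  by_cases c : Prim u ∧ Prim n ∧ Squarefree n
  · obtain ⟨c1, c2, c3⟩ := c
    have p3 := hB.b2.pow u 3 c1
    have a1 := hB.b1.N_one_le _ (hB.b2.ne _ c1)
    have a2 := hB.b1.N_one_le _ (hB.b2.ne _ c2)
    simp only [hf, cZ, c1, c2, c3, hB.b2.mul _ _ c2 p3, true_and, and_true, if_true,
      IsCoprime.mul_left_iff, IsCoprime.pow_left_iff three_pos]
    by_cases c4 : IsCoprime n s
    · by_cases c5 : IsCoprime u s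
      · simp only [c4, c5, and_self, if_true]
        have g1 : gs n * conj (gs n) = (N n : ℝ) := by
          rw [mul_conj', ← ofReal_pow, E.hH.n3 n (hB.b2.cop n c2) c3]
        have r1 : N n * N u ^ 4 * (N n * N u ^ 3) ^ (-7 / 6 : ℝ) =
            N u ^ (1 / 2 : ℝ) * N n ^ (-1 / 6 : ℝ) := by
          have b1 : N n ^ (-1 / 6 : ℝ) = N n * N n ^ (-7 / 6 : ℝ) := by
            rw [← Real.rpow_one_add' (N0 n) (by norm_num)]; norm_num
          have b2 : N u ^ (1 / 2 : ℝ) = N u ^ 4 * (N u ^ 3) ^ (-7 / 6 : ℝ) := by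
            rw [← Real.rpow_natCast, ← Real.rpow_natCast, ← Real.rpow_mul (N0 u),
              ← Real.rpow_add (by linarith)]
            norm_num
          rw [b1, b2, Real.mul_rpow (N0 n) (by positivity)]; ring
        have r2 := congrArg (fun x : ℝ => (x : ℂ)) r1
        rw [E.hb.eq n u c2 c1 c3, ph, K.W8M.ph, hB.b1.N_mul, hB.b1.N_pow, mul_comm (N n) (N u ^ 3),
          E.hL.scale X _ _ hX (by linarith) (by positivity), mul_comm (N u ^ 3) (N n),
          div_div_eq_mul_div]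
        simp only [map_mul, map_pow, conj_ofReal, ofReal_mul, ofReal_pow] at r2 ⊢
        linear_combination ((N u : ℂ) ^ 4 * (((N n * N u ^ 3) ^ (-7 / 6 : ℝ) : ℝ) : ℂ) *
          (VV (X / N u ^ 3) (N n) : ℝ) * tw t (N n * N u ^ 3 / X)) * g1 +
          ((VV (X / N u ^ 3) (N n) : ℝ) : ℂ) * tw t (N n * N u ^ 3 / X) * r2
      · simp [c5]
    · simp [c4]
  · rw [if_neg c]
    by_cases c1 : Prim u
    · rw [if_neg fun h => c ⟨c1, h.1, h.2.2⟩, mul_zero]
    · simp [cZ, c1]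

theorem main (E : Env) (h0 : W0Stmt) : W8Stmt := by
  have hB := E.hB
  intro ε hε
  obtain ⟨C, hC, hA⟩ := AA_est E h0
  obtain ⟨C1, h1⟩ := E.h8.ome 2 ε (by norm_num) hε
  have z1 : 0 ≤ ∑' t : O, N t ^ (-(43 / 30) : ℝ) := tsum_nonneg fun t => Real.rpow_nonneg (N0 t) _
  have z2 : 0 ≤ ∑' t : O, N t ^ (-(23 / 20) : ℝ) := tsum_nonneg fun t => Real.rpow_nonneg (N0 t) _
  refine ⟨C * |C1| * (∑' t : O, N t ^ (-(43 / 30) : ℝ)) * ∑' t : O, N t ^ (-(23 / 20) : ℝ),
    by positivity, fun s r Y hs hY => ?_⟩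
  have pM : ∀ t, cM s t ≠ 0 → Prim t ∧ IsCoprime t s := fun t h => by
    by_contra c; exact h (if_neg c)
  have pZ : ∀ t, cZ s t ≠ 0 → Prim t ∧ IsCoprime t s := fun t h => by
    by_contra c; exact h (if_neg c)
  have o1 := op E (cM s) (fun t => N t ^ 2) (AA r s) _ (C * (1 + |r|) * 2 ^ (pf s).card) (43 / 30)
    (by positivity)
    (by norm_num)
    (fun t h => one_le_pow₀ (hB.b1.N_one_le _ (hB.b2.ne _ (pM t h).1))) (fun t h => by
      have a1 := hB.b1.N_one_le _ (hB.b2.ne _ (pM t h).1)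
      have e : N t ^ (-(43 / 30) : ℝ) = N t ^ (-1 / 3 : ℝ) * (N t ^ 2) ^ (-(11 / 20) : ℝ) := by
        rw [← Real.rpow_natCast, ← Real.rpow_mul (N0 t), ← Real.rpow_add (by linarith)]
        norm_num
      rw [e, cM, if_pos (pM t h), norm_mul, norm_real, Real.norm_of_nonneg (by positivity)]
      exact mul_le_mul_of_nonneg_right
        (mul_le_of_le_one_left (by positivity) (ZKM.norm_mu t)) (by positivity)) (hA r s hs)
  have o2 := op E (cZ s) (fun t => N t ^ 3) (BS r s) _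
    (C * (1 + |r|) * 2 ^ (pf s).card * ∑' t : O, N t ^ (-(43 / 30) : ℝ)) (23 / 20) (by positivity)
    (by norm_num)
    (fun t h => one_le_pow₀ (hB.b1.N_one_le _ (hB.b2.ne _ (pZ t h).1))) (fun t h => by
      have a1 := hB.b1.N_one_le _ (hB.b2.ne _ (pZ t h).1)
      have e : N t ^ (-(23 / 20) : ℝ) = N t ^ (1 / 2 : ℝ) * (N t ^ 3) ^ (-(11 / 20) : ℝ) := by
        rw [← Real.rpow_natCast, ← Real.rpow_mul (N0 t), ← Real.rpow_add (by linarith)]
        norm_num
      rw [e, cZ, if_pos (pZ t h), norm_real, Real.norm_of_nonneg (by positivity)])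
    (fun X hX => by rw [BS_eq E r s hX]; exact o1 X hX) Y hY
  rw [← TT_eq E r s hY, cM_sum E, cZ_sum E, mul_assoc (((al * EP s : ℝ) : ℂ) * m0 r), MZ E s hs,
    mul_one] at o2
  have e : B s r Y = tw r Y * ∑' k, ((if Prim k ∧ IsCoprime k s then ww k * VV Y (N k) else 0 : ℝ) : ℂ) *
      tw r (N k / Y) := by
    rw [B, ← tsum_mul_left]
    refine tsum_congr fun k => ?_
    split_ifs
    · rw [wt_eq r (N0 k) hY]; push_cast; ring
    · simp
  rw [e, mw_eq r hY, mul_left_comm _ (tw r Y), ← mul_sub, norm_mul, tw_norm r hY, one_mul,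
    ← mul_assoc _ (m0 r)]
  refine o2.trans ?_
  have a1 : (2 : ℝ) ^ (pf s).card ≤ |C1| * N s ^ ε := by
    have b1 := E.h8.rd_ge s
    refine (h1 s).trans (mul_le_mul (le_abs_self _) (Real.rpow_le_rpow (by linarith)
      (E.h8.rd_le s (hB.b2.ne s hs)) hε.le) (by positivity) (abs_nonneg _))
  calc _ ≤ C * (1 + |r|) * (|C1| * N s ^ ε) * (∑' t : O, N t ^ (-(43 / 30) : ℝ)) *
        (∑' t : O, N t ^ (-(23 / 20) : ℝ)) * Y ^ (11 / 20 : ℝ) := by gcongr
    _ = _ := by ring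

end W8M

theorem w8S (E : K.Env) (h0 : W0Stmt) : W8Stmt := W8M.main E h0

end Vale.Agent.P006.MI
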