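import Vale.Agent.P006.MI

/-! P006 type I block: lattice sums of powers of the norm. -/

noncomputable section
open Finset
open scoped Classical

namespace Vale.Agent.P006.MI
open Vale.Agent.P026 Vau W1

namespace ZTM

lemma geo {r : ℝ} (r0 : 0 ≤ r) (r1 : r < 1) (s : Finset ℕ) : ∑ j ∈ s, r ^ j ≤ (1 - r)⁻¹ :=
  (tsum_geometric_of_lt_one r0 r1) ▸
    (summable_geometric_of_lt_one r0 r1).sum_le_tsum s fun _ _ => by positivity

lemma lg {x : ℝ} (q : 1 ≤ x) : (2 : ℝ) ^ Nat.log 2 ⌊x⌋₊ ≤ x ∧ x ≤ 2 * 2 ^ Nat.log 2 ⌊x⌋₊ := by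
  have q' : ⌊x⌋₊ ≠ 0 := (Nat.floor_pos.2 q).ne'
  constructor
  · exact_mod_cast (Nat.le_floor_iff (by linarith)).1 (Nat.pow_log_le_self 2 q')
  · have := (Nat.floor_lt (by linarith)).1 (Nat.lt_pow_succ_log_self one_lt_two ⌊x⌋₊)
    push_cast at this
    rw [pow_succ] at this
    linarith

/-- dyadic summation -/
lemma dy (s : Finset O) (f : O → ℝ) (g : O → ℕ) {A r : ℝ} (A0 : 0 ≤ A) (r0 : 0 ≤ r) (r1 : r < 1)
    (h : ∀ j, ∑ m ∈ s.filter (fun m => g m = j), f m ≤ A * r ^ j) : ∑ m ∈ s, f m ≤ A * (1 - r)⁻¹ := by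
  rw [← sum_fiberwise_of_maps_to (g := g) (t := s.image g) fun m hm => mem_image_of_mem _ hm]
  refine (sum_le_sum fun j _ => h j).trans ?_
  rw [← mul_sum]
  exact mul_le_mul_of_nonneg_left (geo r0 r1 _) A0

lemma pw (x : ℝ) (j : ℕ) : ((2 : ℝ) ^ j) ^ x = ((2 : ℝ) ^ x) ^ j := by
  rw [← Real.rpow_natCast, ← Real.rpow_natCast, ← Real.rpow_mul zero_le_two,
    ← Real.rpow_mul zero_le_two, mul_comm]

lemma up {σ : ℝ} (hσ : 1 < σ) {E : ℝ} (hE : 0 < E) (s : Finset O) (hs : ∀ m ∈ s, E ≤ N m) :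
    ∑ m ∈ s, N m ^ (-σ) ≤ 32 * E ^ (1 - σ) * (1 - 2 ^ (1 - σ))⁻¹ := by
  refine dy s _ (fun m => Nat.log 2 ⌊N m / E⌋₊) (by positivity) (by positivity)
    (Real.rpow_lt_one_of_one_lt_of_neg one_lt_two (by linarith)) fun j => ?_
  have key : ∀ m ∈ s.filter fun m => Nat.log 2 ⌊N m / E⌋₊ = j,
      2 ^ j * E ≤ N m ∧ N m ≤ 2 * 2 ^ j * E := fun m hm => by
    obtain ⟨h1, rfl⟩ := mem_filter.1 hm
    have := lg ((one_le_div hE).2 (hs m h1))
    rwa [le_div_iff₀ hE, div_le_iff₀ hE] at this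
  have c := bas.b3.card_le (2 * 2 ^ j * E) _ (by positivity) fun m hm => ⟨fun z => by
    have := (key m hm).1
    rw [z, bas.b1.N_zero] at this
    exact absurd this (not_le.2 (by positivity)), (key m hm).2⟩
  refine (sum_le_card_nsmul _ _ ((2 ^ j * E) ^ (-σ)) fun m hm =>
    Real.rpow_le_rpow_of_nonpos (by positivity) (key m hm).1 (by linarith)).trans ?_
  rw [nsmul_eq_mul]
  refine (mul_le_mul_of_nonneg_right c (by positivity)).trans (le_of_eq ?_)
  rw [← pw, sub_eq_add_neg, Real.rpow_add hE, Real.rpow_add (by positivity), Real.rpow_one,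
    Real.rpow_one, Real.mul_rpow (by positivity) hE.le]
  ring

lemma dn {σ : ℝ} (hσ : σ < 1) {R : ℝ} (hR : 0 < R) (s : Finset O) (hs : ∀ m ∈ s, m ≠ 0 ∧ N m ≤ R) :
    ∑ m ∈ s, N m ^ (-σ) ≤ 16 * (2 ^ σ + 1) * R ^ (1 - σ) * (1 - 2 ^ (σ - 1))⁻¹ := by
  refine dy s _ (fun m => Nat.log 2 ⌊R / N m⌋₊) (by positivity) (by positivity)
    (Real.rpow_lt_one_of_one_lt_of_neg one_lt_two (by linarith)) fun j => ?_
  have key : ∀ m ∈ s.filter fun m => Nat.log 2 ⌊R / N m⌋₊ = j,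
      m ≠ 0 ∧ N m ≤ R / 2 ^ j ∧ R / 2 ^ j / 2 ≤ N m := fun m hm => by
    obtain ⟨h1, rfl⟩ := mem_filter.1 hm
    have n1 := bas.b1.N_one_le m (hs m h1).1
    have := lg ((one_le_div (by linarith)).2 (hs m h1).2)
    rw [le_div_iff₀ (by linarith), div_le_iff₀ (by linarith)] at this
    refine ⟨(hs m h1).1, ?_, ?_⟩
    · rw [le_div_iff₀ (by positivity)]; linarith
    · rw [div_div, div_le_iff₀ (by positivity)]; linarith
  have c := bas.b3.card_le (R / 2 ^ j) _ (by positivity) fun m hm => ⟨(key m hm).1, (key m hm).2.1⟩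
  have q0 : 0 < R / 2 ^ j := by positivity
  refine (sum_le_card_nsmul _ _ ((2 ^ σ + 1) * (R / 2 ^ j) ^ (-σ)) fun m hm => ?_).trans ?_
  · obtain ⟨k1, k2, k3⟩ := key m hm
    have n1 := bas.b1.N_one_le m k1
    have p1 : 0 ≤ (2 : ℝ) ^ σ * (R / 2 ^ j) ^ (-σ) := by positivity
    have p2 : 0 ≤ (R / 2 ^ j) ^ (-σ) := by positivity
    rcases le_total 0 σ with h | h
    · have := Real.rpow_le_rpow_of_nonpos (by positivity) k3 (neg_nonpos.2 h)
      rw [Real.div_rpow q0.le zero_le_two, Real.rpow_neg zero_le_two, div_inv_eq_mul] at this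
      linarith
    · have := Real.rpow_le_rpow (by linarith) k2 (neg_nonneg.2 h)
      linarith
  · rw [nsmul_eq_mul]
    refine (mul_le_mul_of_nonneg_right c (by positivity)).trans (le_of_eq ?_)
    have e : R / 2 ^ j * (R / 2 ^ j) ^ (-σ) = R ^ (1 - σ) * (2 ^ (σ - 1)) ^ j := by
      rw [← pw, ← Real.rpow_one_add' q0.le (by linarith), Real.div_rpow hR.le (by positivity),
        div_eq_mul_inv, ← Real.rpow_neg (by positivity), sub_eq_add_neg 1]
      congr 2; ring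
    linear_combination 16 * (2 ^ σ + 1) * e

end ZTM

open ZTM in
theorem ztS : ZTStmt := by
  have pos : ∀ x : ℝ, x < 0 → 0 ≤ (1 - (2 : ℝ) ^ x)⁻¹ := fun x hx =>
    inv_nonneg.2 (sub_nonneg.2 (Real.rpow_lt_one_of_one_lt_of_neg one_lt_two hx).le)
  refine ⟨fun σ hσ => ⟨32 * (1 - 2 ^ (1 - σ))⁻¹, mul_nonneg (by norm_num) (pos _ (by linarith)),
    fun E hE => ?_⟩, fun σ hσ => ⟨16 * (2 ^ σ + 1) * (1 - 2 ^ (σ - 1))⁻¹,
    mul_nonneg (by positivity) (pos _ (by linarith)), fun S R hR hS => ?_⟩,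
    fun σ hσ => ⟨∑' a : O, N a ^ (-σ), tsum_nonneg fun a => Real.rpow_nonneg (N0 _) _, fun S =>
      (bas.b3.summ σ hσ).sum_le_tsum S fun a _ => Real.rpow_nonneg (N0 _) _⟩⟩
  · have nn : ∀ u : O, 0 ≤ if Prim u ∧ E < N u then N u ^ (-σ) else 0 := fun u => by
      split_ifs
      · exact Real.rpow_nonneg (N0 _) _
      · rfl
    have sm : Summable fun u : O => if Prim u ∧ E < N u then N u ^ (-σ) else 0 :=
      (bas.b3.summ σ hσ).of_nonneg_of_le nn fun u => by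
        split_ifs
        · rfl
        · exact Real.rpow_nonneg (N0 _) _
    refine ⟨sm, sm.tsum_le_of_sum_le fun s => ?_⟩
    rw [← sum_filter, mul_right_comm]
    exact up hσ (by linarith) _ fun m hm => (mem_filter.1 hm).2.2.le
  · rw [mul_right_comm]
    exact dn hσ (by linarith) S hS

end Vale.Agent.P006.MI
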